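import Vale.Agent.P146.U.H622.FrA
import Vale.Agent.P146.U.H393.Ex2M
import Vale.Agent.P146.U.Ex3f

/-!
# P146: the front of the two-level functional (inputs of the lower half)

Consequences of the upper half (`KStar`, `CgfU`, `LStar`) for the SK functional `P2 n β x T b`
(exponent `b ∈ [x, 2x]` on a last window of length `T`, outer exponent `x`,
`n^(-1/6) ≤ x ≤ n^(-1/10)`):

* `near`: windows `T ≤ x²` cost at most `C (b - x) n x⁴ (T/x²)^(1/600)`;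
* `tail`: windows beyond `C_ε x²` cost at most `ε (b - x) n x⁴`;
* `front`: if `κ n x⁴ ≤ Wn n β x` then the windows `[τ₁ x², τ₂ x²]` carry `(κ/4) (b - x) n x⁴`, and
  `front_ST`: at some `T` of this interval the squared gradient is at least `c n x²`.
-/

open MeasureTheory ProbabilityTheory Filter

namespace Vale.Agent.P146.U.Fr

open Vale.Agent.P157.Lv Vale.Agent.P146.H425 Vale.Agent.P146.R1 Vale.Agent.P146.H332
  Vale.Agent.P146.H325 Vale.Agent.P146.U Vale.Agent.P146.U.SelK Vale.Agent.P146.U.H393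

set_option linter.unusedSectionVars false

variable {n : ℕ} {β x b T : ℝ}

/-- the bound of the K-side with its exponents -/
def Ex2Key (β : ℝ) : Prop := ∃ C : ℝ, ∃ n0 : ℕ, 0 < C ∧ ∀ n : ℕ, n0 ≤ n →
  ∀ x b T : ℝ, (n : ℝ) ^ (-(1 / 6) : ℝ) ≤ x → x ≤ (n : ℝ) ^ (-(1 / 10) : ℝ) → x ≤ b → 0 < T →
    T ≤ 1 → x * (T / x ^ 2) ^ (-(1 / 600) : ℝ) ≤ b →
    P2 n β x T b - P2 n β x T x ≤ C * (n * x ^ 4 * b * (b / x) ^ 5 * (T / x ^ 2) ^ (1 / 100 : ℝ))

/-- **The K-side** with the exponent `1/600`. -/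
theorem ex2_key {β : ℝ} (hK : KStar β) (hC : CgfU β) : Ex2Key β := by
  obtain ⟨CK, MK, nK, hCK, hMK, hK⟩ := hK (2 * 4 ^ 6) LK 5 (1 / 100) (by norm_num)
    LK_one (by norm_num) (by norm_num) (by norm_num)
  obtain ⟨C0, hC0, n0, hcap⟩ := caps hC
  obtain ⟨CK', hCK'⟩ : ∃ CK', CK' = max CK 1 := ⟨_, rfl⟩
  obtain ⟨M₁, hM₁⟩ : ∃ M₁, M₁ = 2 * C0 + 2 * MK + 8 * CK' ^ 2 := ⟨_, rfl⟩
  have hCK1 : 1 ≤ CK' := by rw [hCK']; exact le_max_right _ _
  have hM₁0 : 0 < M₁ := by rw [hM₁]; positivity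
  refine ⟨M₁, max (max n0 nK) 1, hM₁0, fun n hn x b T hx hx1 hxb hT hT1 hb => ?_⟩
  have hn0' : n0 ≤ n := ((le_max_left _ _).trans (le_max_left _ _)).trans hn
  have hnK : nK ≤ n := ((le_max_right _ _).trans (le_max_left _ _)).trans hn
  have hn1 : 1 ≤ n := (le_max_right _ _).trans hn
  have hnn : (1 : ℝ) ≤ n := by exact_mod_cast hn1
  have hnp : (0 : ℝ) < n := by linarith
  have hx0 : 0 < x := lt_of_lt_of_le (Real.rpow_pos_of_pos hnp _) hx
  have hxone : x ≤ 1 := hx1.trans (Real.rpow_le_one_of_one_le_of_nonpos hnn (by norm_num))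
  have hx15 : (n : ℝ) ^ (-(1 / 5) : ℝ) ≤ x :=
    le_trans (Real.rpow_le_rpow_of_exponent_le hnn (by norm_num)) hx
  have hnx : 1 ≤ (n : ℝ) * x ^ 6 := (f_x6 hn1 hx).2
  have key : ∀ b T, Om x 6 (1 / 100) 1 b T → Ek n β x b T ≤ M₁ * H n x 6 (1 / 100) b T := by
    rcases sel_reg (n := n) (β := β) (C0 := C0) (M₁ := M₁) hn1 hx0 hxone hM₁0
      (by rw [hM₁]; nlinarith [sq_nonneg CK'])
      (fun b T hb hT hT1 hc => hcap n hn0' x b T hx hx1 hb hT hT1 hc) with h | h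
    · exact h
    obtain ⟨a, T', M, h1, h2, h3, ⟨c1, c2, c3⟩, h5, h6⟩ := h
    exfalso
    obtain ⟨o1, o2, o3, -⟩ := id h1
    have ha0 : 0 < a := hx0.trans_le o3
    have hE0 : 0 ≤ Ek n β x a T' := Ek_nonneg hx0 o3
    have hTL : T' / LK ≤ 1 := (div_le_self o1.le LK_one).trans o2
    have hTL0 : 0 < T' / LK := div_pos o1 LK_pos
    -- values at the trivial exponent
    have self : ∀ t, 0 ≤ t → t ≤ 1 → P2 n β x t x = P2 n β x T' x := fun t h0 h1' =>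
      AP.P2_self_eq hx0 h0 h1' o1.le o2
    have a4 : P2 n β x T' (4 * a) - P2 n β x T' x ≤ 2 * 4 ^ 6 * Ek n β x a T' := by
      have h7 := h5 1 4 le_rfl (by norm_num) (by rw [one_mul]; exact o2)
      rw [one_mul, Real.one_rpow, mul_one] at h7
      exact h7
    have aL : P2 n β x (T' / LK) a - P2 n β x T' x ≤ 1 / 2 * Ek n β x a T' := by
      rw [← self _ hTL0.le hTL]
      exact h6
    have gr : ∀ K N : ℝ, 1 ≤ K → 1 ≤ N → K * T' ≤ (n : ℝ) ^ (-(1 / 20) : ℝ) →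
        P2 n β x (K * T') (N * a) - P2 n β x T' x ≤
          2 * 4 ^ 6 * N ^ (1 + 5 : ℝ) * K ^ (1 / 100 : ℝ) * Ek n β x a T' := by
      intro K N hK1 hN1 hKT
      have hKT1 : K * T' ≤ 1 :=
        hKT.trans (Real.rpow_le_one_of_one_le_of_nonpos hnn (by norm_num))
      have hKT0 : 0 ≤ K * T' := by positivity
      have h7 := h5 K N hK1 hN1 hKT1
      rw [← self _ hKT0 hKT1]
      have e6 : N ^ (1 + 5 : ℝ) = N ^ 6 := by
        rw [show (1 + 5 : ℝ) = ((6 : ℕ) : ℝ) by norm_num, Real.rpow_natCast]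
      rw [e6]
      refine h7.trans ?_
      have h8 : 0 ≤ N ^ 6 * K ^ (1 / 100 : ℝ) * Ek n β x a T' := by positivity
      nlinarith
    have act : MK ≤ x * Ek n β x a T' := by
      have h7 := h1.action hx0 (by norm_num)
      have h8 : M / 2 ≤ x * (M / 2 * H n x 6 (1 / 100) a T') := by
        have e : x * (M / 2 * H n x 6 (1 / 100) a T') =
            M / 2 * ((n * x ^ 6) * ((a / x) ^ 6 * (T' / x ^ 2) ^ (1 / 100 : ℝ))) := by
          unfold H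
          ring
        rw [e]
        refine le_mul_of_one_le_right (by linarith) ?_
        exact one_le_mul_of_one_le_of_one_le hnx h7
      have h9 := mul_le_mul_of_nonneg_left h3 hx0.le
      have h10 : 2 * MK ≤ M₁ := by rw [hM₁]; nlinarith [sq_nonneg CK']
      linarith
    obtain ⟨f1, f2⟩ := hK n hnK x a T' (Ek n β x a T') hx15 o3 c3 c1 c2 rfl a4 aL gr act
    have hB0 : 0 ≤ a ^ 2 + 1 / √(n * T') := by positivity
    have g1 : Ek n β x a T' ≤ CK' * (a * n * T') * (a ^ 2 + 1 / √(n * T')) := by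
      refine f1.trans ?_
      have : CK ≤ CK' := by rw [hCK']; exact le_max_left _ _
      gcongr
    have g2 : T' ≤ CK' * (a ^ 2 + 1 / √(n * T')) := by
      refine f2.trans ?_
      have : CK ≤ CK' := by rw [hCK']; exact le_max_left _ _
      gcongr
    have fin := kfin hnp hx0 hnx o3 o1 hCK1 (hM₁0.trans h2) h3 g1 g2
    rw [hM₁] at h2
    linarith
  have h1 := key b T (om_of hx0 hT hT1 hxb hb)
  rw [H_eq hx0] at h1
  exact h1

/-- **Short windows.** -/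
theorem near (h : Ex2Key β) : ∃ C : ℝ, ∃ n0 : ℕ, 0 < C ∧ ∀ n : ℕ, n0 ≤ n → ∀ x b T : ℝ,
    (n : ℝ) ^ (-(1 / 6) : ℝ) ≤ x → x ≤ (n : ℝ) ^ (-(1 / 10) : ℝ) → x ≤ b → b ≤ 2 * x → 0 < T →
    T ≤ x ^ 2 →
    P2 n β x T b - P2 n β x T x ≤
      C * ((b - x) * (n * x ^ 4) * (T / x ^ 2) ^ (1 / 600 : ℝ)) := by
  obtain ⟨C, n0, hC, h⟩ := h
  refine ⟨64 * C, max n0 1, by positivity, fun n hn x b T hx hx1 hxb hb2 hT hTx => ?_⟩
  have hn1 : 1 ≤ n := (le_max_right _ _).trans hn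
  have hnn : (1 : ℝ) ≤ n := by exact_mod_cast hn1
  have hnp : (0 : ℝ) < n := by linarith
  have hx0 : 0 < x := (f_x6 hn1 hx).1
  have hxone : x ≤ 1 := hx1.trans (Real.rpow_le_one_of_one_le_of_nonpos hnn (by norm_num))
  have hs : 0 < T / x ^ 2 := by positivity
  have hs1 : T / x ^ 2 ≤ 1 := (div_le_one (by positivity)).2 hTx
  obtain ⟨r, hr⟩ : ∃ r, r = (T / x ^ 2) ^ (-(1 / 600) : ℝ) := ⟨_, rfl⟩
  have hr1 : 1 ≤ r := by
    rw [hr]
    exact Real.one_le_rpow_of_pos_of_le_one_of_nonpos hs hs1 (by norm_num)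
  have hr0 : 0 < r := by linarith
  have hri : (T / x ^ 2) ^ (1 / 600 : ℝ) = r⁻¹ := by
    rw [hr, ← Real.rpow_neg hs.le]
    norm_num
  have hr6 : (T / x ^ 2) ^ (1 / 100 : ℝ) = (r ^ 6)⁻¹ := by
    rw [hr]
    generalize T / x ^ 2 = S at hs
    rw [← Real.rpow_natCast, ← Real.rpow_mul hs.le, ← Real.rpow_neg hs.le]
    norm_num
  have hxr : x ≤ x * r := le_mul_of_one_le_right hx0.le hr1
  have hTone : T ≤ 1 := hTx.trans (pow_le_one₀ hx0.le hxone)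
  -- the far exponent
  have h1 := h n ((le_max_left _ _).trans hn) x (2 * (x * r)) T hx hx1 (by linarith) hT hTone
    (by rw [← hr]; linarith)
  have e1 : C * (n * x ^ 4 * (2 * (x * r)) * (2 * (x * r) / x) ^ 5 * (T / x ^ 2) ^ (1 / 100 : ℝ)) =
      64 * C * (n * x ^ 5) := by
    rw [hr6]
    field_simp
    norm_num
  rw [e1] at h1
  -- convexity
  have hd : 0 < 2 * (x * r) - x := by linarith
  obtain ⟨q, hq⟩ : ∃ q, q = (b - x) / (2 * (x * r) - x) := ⟨_, rfl⟩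
  have hbx : 0 ≤ b - x := sub_nonneg.2 hxb
  have hq0 : 0 ≤ q := by rw [hq]; exact div_nonneg hbx hd.le
  have hq1 : q ≤ 1 := by
    rw [hq, div_le_one hd]
    linarith
  have hqr : q ≤ (b - x) / (x * r) := by
    rw [hq]
    exact div_le_div_of_nonneg_left hbx (by positivity) (by linarith)
  have h2 := AP.P2_convex (n := n) (β := β) (T := T) hx0 (p := 1 - q) (q := q) (by linarith) hq0
    (by ring) hx0 (show 0 < 2 * (x * r) by positivity)
  have e2 : (1 - q) * x + q * (2 * (x * r)) = b := by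
    have e3 : q * (2 * (x * r) - x) = b - x := by rw [hq]; exact div_mul_cancel₀ _ hd.ne'
    linarith
  rw [e2] at h2
  have h3 : P2 n β x T b - P2 n β x T x ≤ q * (64 * C * (n * x ^ 5)) := by
    have := mul_le_mul_of_nonneg_left h1 hq0
    linarith
  refine h3.trans ((mul_le_mul_of_nonneg_right hqr (by positivity)).trans (le_of_eq ?_))
  rw [hri]
  field_simp

/-- `T ↦ P2 (b, T)` is concave -/
lemma P2_conc (n : ℕ) (hβ : 0 ≤ β) (hx : 0 < x) (hxb : x < b) (hb : b < 1) :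
    ConcaveOn ℝ (Set.Icc (0 : ℝ) 1) fun T => P2 n β x T b :=
  H676.PT_conc (k := β / √n) (S := SkS (n := n)) (x0 := 1) (H676.gg_SkS n)
    (by positivity) hx hxb hb

lemma x_small : ∀ c : ℝ, 0 < c → ∃ n0 : ℕ, ∀ n : ℕ, n0 ≤ n → (n : ℝ) ^ (-(1 / 10) : ℝ) ≤ c := by
  intro c hc
  have h1 := tendsto_rpow_neg_atTop (show (0 : ℝ) < 1 / 10 by norm_num)
  have h2 := h1.comp tendsto_natCast_atTop_atTop
  obtain ⟨n0, h3⟩ := eventually_atTop.1 (h2.eventually (eventually_le_nhds hc))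
  exact ⟨n0, fun n hn => h3 n hn⟩

/-- **Long windows.** -/
theorem tail (hβ : 0 ≤ β) (h2 : Ex2Out β) (hL : LStar β) {ε : ℝ} (hε : 0 < ε) :
    ∃ C : ℝ, ∃ n0 : ℕ, 1 ≤ C ∧ ∀ n : ℕ, n0 ≤ n → ∀ x b T : ℝ,
    (n : ℝ) ^ (-(1 / 6) : ℝ) ≤ x → x ≤ (n : ℝ) ^ (-(1 / 10) : ℝ) → x ≤ b → b ≤ 2 * x →
    C * x ^ 2 ≤ T → T ≤ 1 →
    P2 n β x 1 b - P2 n β x T b ≤ ε * ((b - x) * (n * x ^ 4)) := by
  obtain ⟨C2, n2, hC2, hU⟩ := h2
  obtain ⟨CL, M, nL, hCL, hHL⟩ := hl_of hL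
  obtain ⟨C, hC, hTl⟩ := tailb (M := C2) (Λ1 := M) (CL := CL) (ε := ε / 3) hC2 hCL (by positivity)
  obtain ⟨n3, hn3⟩ := x_small (1 / (4 * C)) (by positivity)
  refine ⟨C, max (max n2 nL) (max n3 1), hC, fun n hn x b T hx hx' hxb hb2 hT0 hT1 => ?_⟩
  have hn2 : n2 ≤ n := (le_max_left _ _).trans ((le_max_left _ _).trans hn)
  have hnL : nL ≤ n := (le_max_right _ _).trans ((le_max_left _ _).trans hn)
  have hn3' : n3 ≤ n := (le_max_left _ _).trans ((le_max_right _ _).trans hn)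
  have hn1 : 1 ≤ n := (le_max_right _ _).trans ((le_max_right _ _).trans hn)
  have hnn : (1 : ℝ) ≤ n := by exact_mod_cast hn1
  have hn0 : (0 : ℝ) < n := by linarith
  obtain ⟨hx0, hx6⟩ := f_x6 hn1 hx
  have hxs : x ≤ 1 / (4 * C) := hx'.trans (hn3 n hn3')
  have hx4 : x ≤ 1 / 4 := by
    refine hxs.trans ?_
    exact one_div_le_one_div_of_le (by norm_num) (by linarith)
  have hCx : C * x ^ 2 ≤ 1 / 4 := by
    have h1 : C * x ≤ 1 / 4 := by
      rw [le_div_iff₀ (by positivity)] at hxs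
      linarith
    have h3 : C * x ^ 2 = C * x * x := by ring
    rw [h3]
    have h4 : C * x * x ≤ C * x * 1 := mul_le_mul_of_nonneg_left (by linarith) (by positivity)
    linarith
  have hbx : 0 ≤ b - x := sub_nonneg.2 hxb
  have hR0 : 0 ≤ (b - x) * (n * x ^ 4) := by positivity
  rcases hxb.eq_or_lt with rfl | hlt
  · rw [AP.P2_self_eq hx0 zero_le_one le_rfl (le_trans (by positivity) hT0) hT1, sub_self]
    positivity
  have hup : UP ((n : ℝ) * x ^ 4) x C2 (Fsk n β) := by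
    intro b T hb hT0 hT1
    have h1 := hU n hn2 x b T hx hx' hb hT0 hT1
    have hT : 0 ≤ T := le_trans (by positivity) hT0
    rw [AP.P2_self hx0 hT (by linarith)] at h1
    exact h1
  -- it suffices to treat `T ≤ 1/4`
  suffices hs : ∀ T : ℝ, C * x ^ 2 ≤ T → T ≤ 1 / 4 →
      P2 n β x 1 b - P2 n β x T b ≤ ε * ((b - x) * (n * x ^ 4)) by
    rcases le_total T (1 / 4) with h | h
    · exact hs T hT0 h
    · have h1 := hs (1 / 4) hCx le_rfl
      have h3 := AP.P2_mono_T (n := n) (β := β) hx0 hxb (show (0 : ℝ) ≤ 1 / 4 by norm_num) h hT1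
      linarith
  intro T hT0 hT4
  have hTpos : 0 ≤ T := le_trans (by positivity) hT0
  have h1 := hTl (Pair n) (Fsk n β) _ _ _ n x b T (AP.c11_Fsk n β) (AP.cv_Fsk n β) hn0 hx0
    (by linarith) hx6 hup (hHL n hnL x hx hx') hxb hb2 hT0 (by linarith)
  rw [PT_Fsk, PT_Fsk] at h1
  -- concavity
  have hcc := P2_conc n hβ hx0 hlt (by linarith)
  have hT1' : 0 < 1 - T := by linarith
  have w0 : 0 ≤ 1 / (2 * (1 - T)) := by positivity
  have w1 : 0 ≤ 1 - 1 / (2 * (1 - T)) := by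
    rw [sub_nonneg, div_le_one (by linarith)]
    linarith
  have h3 := hcc.2 (show T ∈ Set.Icc (0 : ℝ) 1 from ⟨hTpos, by linarith⟩)
    (show (1 : ℝ) ∈ Set.Icc (0 : ℝ) 1 by simp) w0 w1 (by ring)
  simp only [smul_eq_mul, mul_one] at h3
  have e1 : 1 / (2 * (1 - T)) * T + (1 - 1 / (2 * (1 - T))) = 1 / 2 := by
    field_simp
    ring
  rw [e1] at h3
  have hm : P2 n β x (1 / 2) b ≤ P2 n β x 1 b :=
    AP.P2_mono_T hx0 hxb (by norm_num) (by norm_num) le_rfl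
  have hm2 : P2 n β x T b ≤ P2 n β x 1 b :=
    AP.P2_mono_T hx0 hxb hTpos (by linarith) le_rfl
  obtain ⟨w, hw⟩ : ∃ w, w = 1 / (2 * (1 - T)) := ⟨_, rfl⟩
  rw [← hw] at h3
  have hw1 : w ≤ 2 / 3 := by
    rw [hw, div_le_div_iff₀ (by positivity) (by norm_num)]
    linarith
  have h5 : (1 - w) * (P2 n β x 1 b - P2 n β x T b) ≤ P2 n β x (1 / 2) b - P2 n β x T b := by
    linarith
  have h6 : 1 / 3 * (P2 n β x 1 b - P2 n β x T b) ≤ (1 - w) * (P2 n β x 1 b - P2 n β x T b) :=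
    mul_le_mul_of_nonneg_right (by linarith) (by linarith)
  have e2 : ε / 3 * (n * x ^ 4 * (b - x)) = 1 / 3 * (ε * ((b - x) * (n * x ^ 4))) := by ring
  rw [e2] at h1
  linarith

/-- **The front.** If the share of the pure law is at least `κ n x⁴`, the windows
`[τ₁ x², τ₂ x²]` carry the cost of the exponent `b`. -/
theorem front (hβ : 0 ≤ β) (hK : Ex2Key β) (h2 : Ex2Out β) (hL : LStar β) {κ : ℝ} (hκ : 0 < κ) :
    ∃ τ₁ τ₂ : ℝ, ∃ n0 : ℕ, 0 < τ₁ ∧ τ₁ < 1 ∧ 1 ≤ τ₂ ∧ ∀ n : ℕ, n0 ≤ n → ∀ x b : ℝ,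
    (n : ℝ) ^ (-(1 / 6) : ℝ) ≤ x → x ≤ (n : ℝ) ^ (-(1 / 10) : ℝ) → x < b → b ≤ 2 * x →
    κ * (n * x ^ 4) ≤ AP.Wn n β x →
    τ₂ * x ^ 2 ≤ 1 ∧
    κ / 4 * ((b - x) * (n * x ^ 4)) ≤ P2 n β x (τ₂ * x ^ 2) b - P2 n β x (τ₁ * x ^ 2) b := by
  obtain ⟨C, n1, hC, hN⟩ := near hK
  obtain ⟨C', n2, hC', hT⟩ := tail hβ h2 hL (show 0 < κ / 8 by positivity)
  -- the near constant
  obtain ⟨τ, hτ0, hτ1, hτ⟩ : ∃ τ : ℝ, 0 < τ ∧ τ < 1 ∧ C * τ ^ (1 / 600 : ℝ) ≤ κ / 8 := by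
    refine ⟨min (1 / 2) ((κ / (8 * C)) ^ (600 : ℝ)), by positivity,
      lt_of_le_of_lt (min_le_left _ _) (by norm_num), ?_⟩
    have h1 : (min (1 / 2) ((κ / (8 * C)) ^ (600 : ℝ))) ^ (1 / 600 : ℝ) ≤ κ / (8 * C) := by
      calc (min (1 / 2) ((κ / (8 * C)) ^ (600 : ℝ))) ^ (1 / 600 : ℝ) ≤
          ((κ / (8 * C)) ^ (600 : ℝ)) ^ (1 / 600 : ℝ) :=
            Real.rpow_le_rpow (by positivity) (min_le_right _ _) (by norm_num)
        _ = κ / (8 * C) := by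
            rw [← Real.rpow_mul (by positivity)]
            norm_num
    refine (mul_le_mul_of_nonneg_left h1 hC.le).trans (le_of_eq ?_)
    field_simp
  obtain ⟨n3, hn3⟩ := x_small (1 / C') (by positivity)
  refine ⟨τ, C', max (max n1 n2) (max n3 1), hτ0, hτ1, hC', fun n hn x b hx hx' hxb hb2 hW => ?_⟩
  have hn1 : 1 ≤ n := (le_max_right _ _).trans ((le_max_right _ _).trans hn)
  have hnn : (1 : ℝ) ≤ n := by exact_mod_cast hn1
  obtain ⟨hx0, hx6⟩ := f_x6 hn1 hx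
  have hxone : x ≤ 1 := hx'.trans (Real.rpow_le_one_of_one_le_of_nonpos hnn (by norm_num))
  have hxs : x ≤ 1 / C' := hx'.trans (hn3 n ((le_max_left _ _).trans ((le_max_right _ _).trans hn)))
  have hCx : C' * x ^ 2 ≤ 1 := by
    have h1 : C' * x ≤ 1 := by
      rw [le_div_iff₀ (by positivity)] at hxs
      linarith
    have h3 : C' * x ^ 2 = C' * x * x := by ring
    rw [h3]
    exact mul_le_one₀ h1 hx0.le hxone
  refine ⟨hCx, ?_⟩
  have hbx : 0 < b - x := sub_pos.2 hxb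
  have hx2 : 0 < x ^ 2 := by positivity
  have hR0 : 0 ≤ (b - x) * (n * x ^ 4) := by positivity
  have h1 := hN n ((le_max_left _ _).trans ((le_max_left _ _).trans hn)) x b (τ * x ^ 2) hx hx'
    hxb.le hb2 (by positivity) (mul_le_of_le_one_left hx2.le hτ1.le)
  rw [mul_div_cancel_right₀ _ hx2.ne'] at h1
  have h3 := hT n ((le_max_right _ _).trans ((le_max_left _ _).trans hn)) x b (C' * x ^ 2) hx hx'
    hxb.le hb2 le_rfl hCx
  have h4 := AP.Wn_le (n := n) (β := β) (b := b) hx0 hxb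
  have h5 : (b - x) / 2 * AP.Wn n β x ≤ P2 n β x 1 b - P2 n β x 1 x := by
    rw [div_mul_eq_mul_div, le_div_iff₀ hbx] at h4
    linarith
  have h6 : (b - x) / 2 * (κ * (n * x ^ 4)) ≤ (b - x) / 2 * AP.Wn n β x :=
    mul_le_mul_of_nonneg_left hW (by positivity)
  have h7 : P2 n β x (τ * x ^ 2) x = P2 n β x 1 x :=
    AP.P2_self_eq hx0 (by positivity) ((mul_le_of_le_one_left hx2.le hτ1.le).trans
      (pow_le_one₀ hx0.le hxone)) zero_le_one le_rfl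
  have h8 : C * ((b - x) * (n * x ^ 4) * τ ^ (1 / 600 : ℝ)) ≤ κ / 8 * ((b - x) * (n * x ^ 4)) := by
    have := mul_le_mul_of_nonneg_right hτ hR0
    linarith
  rw [h7] at h1
  linarith

/-- the gradient of the free energy -/
noncomputable def Dsk (n : ℕ) (β : ℝ) : Pair n → (Pair n → ℝ) → ℝ :=
  fun e u => β / √n * H325.av (β / √n) SkS (SkS e) u

/-- **The front, in terms of the gradient**: at some `T ∈ [τ₁ x², τ₂ x²]` the mean squared gradient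
(in the law with the exponent `b` on the last window of length `T`) is at least `c n x²`. -/
theorem front_ST (hβ : 0 ≤ β) (hK : Ex2Key β) (h2 : Ex2Out β) (hL : LStar β) {κ : ℝ}
    (hκ : 0 < κ) :
    ∃ c τ₁ τ₂ : ℝ, ∃ n0 : ℕ, 0 < c ∧ 0 < τ₁ ∧ τ₁ < 1 ∧ 1 ≤ τ₂ ∧ ∀ n : ℕ, n0 ≤ n → ∀ x b : ℝ,
    (n : ℝ) ^ (-(1 / 6) : ℝ) ≤ x → x ≤ (n : ℝ) ^ (-(1 / 10) : ℝ) → x < b → b ≤ 2 * x →
    κ * (n * x ^ 4) ≤ AP.Wn n β x →
    ∃ T : ℝ, τ₁ * x ^ 2 ≤ T ∧ T ≤ τ₂ * x ^ 2 ∧ T ≤ 1 ∧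
      c * (n * x ^ 2) ≤ ST x b T (Fsk n β) (Dsk n β) := by
  obtain ⟨τ₁, τ₂, n0, hτ₁, hτ₁', hτ₂, h⟩ := front hβ hK h2 hL hκ
  refine ⟨κ / (4 * τ₂), τ₁, τ₂, max n0 1, by positivity, hτ₁, hτ₁', hτ₂,
    fun n hn x b hx hx' hxb hb2 hW => ?_⟩
  have hn1 : 1 ≤ n := (le_max_right _ _).trans hn
  have hnn : (1 : ℝ) ≤ n := by exact_mod_cast hn1
  have hn0 : (0 : ℝ) < n := by linarith
  obtain ⟨hx0, hx6⟩ := f_x6 hn1 hx
  obtain ⟨h1, h3⟩ := h n ((le_max_left _ _).trans hn) x b hx hx' hxb hb2 hW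
  by_contra hcon
  push Not at hcon
  have hx2 : 0 < x ^ 2 := by positivity
  have hbx : 0 < b - x := sub_pos.2 hxb
  have h12 : τ₁ * x ^ 2 ≤ τ₂ * x ^ 2 := mul_le_mul_of_nonneg_right (by linarith) hx2.le
  have h4 := PT_drop (b := b) (m := κ / (4 * τ₂) * (n * x ^ 2)) (AP.c11_Fsk n β)
    (AP.cv_Fsk n β) hx0 hxb.le (by positivity) h12 h1 fun t ht ht' =>
      (hcon t ht ht' (ht'.trans h1)).le
  rw [PT_Fsk, PT_Fsk] at h4
  have h5 : (b - x) / 2 * (τ₂ * x ^ 2 - τ₁ * x ^ 2) * (κ / (4 * τ₂) * (n * x ^ 2)) <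
      κ / 4 * ((b - x) * (n * x ^ 4)) := by
    have e : κ / 4 * ((b - x) * (n * x ^ 4)) =
        (b - x) * (τ₂ * x ^ 2) * (κ / (4 * τ₂) * (n * x ^ 2)) := by
      field_simp
    rw [e]
    refine mul_lt_mul_of_pos_right ?_ (by positivity)
    have h6 : τ₂ * x ^ 2 - τ₁ * x ^ 2 ≤ τ₂ * x ^ 2 := by
      have : 0 ≤ τ₁ * x ^ 2 := by positivity
      linarith
    have h7 : 0 < (b - x) * (τ₂ * x ^ 2) := by positivity
    have h8 : (b - x) / 2 * (τ₂ * x ^ 2 - τ₁ * x ^ 2) ≤ (b - x) / 2 * (τ₂ * x ^ 2) :=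
      mul_le_mul_of_nonneg_left h6 (by positivity)
    linarith
  linarith

end Vale.Agent.P146.U.Fr
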