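import Vale.Agent.P146.U.H622.F1d

/-!
The output of F1 in terms of a size `f t z` with `sq t z = k2 * f t z - b` (for SK and for the
position systems: `f t z = fr (A t z)`, `k2 = k²/2`, `b = β²/2`), `k2 * N = ρ`, under
`θ = (1-η)/(64 Λ)`; one error `δ ≥ 3 exp (- y/(1024 Λ))`.
-/

open MeasureTheory ProbabilityTheory

namespace Vale.Agent.P146.U.R1

open Vale.Agent.P157.Lv Vale.Agent.P146.H425 Vale.Agent.P146.R1 Vale.Agent.P146.H327

set_option linter.unusedSectionVars false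

variable {κ : Type} [Fintype κ] {F : (κ → ℝ) → ℝ} {D : κ → (κ → ℝ) → ℝ}
  {B L x θ η T ρ Λ s k2 b N A δ : ℝ} {f : ℝ → (κ → ℝ) → ℝ}

/-- the sizes and the squared gradient -/
structure Sz (x k2 b N ρ : ℝ) (f : ℝ → (κ → ℝ) → ℝ) (F : (κ → ℝ) → ℝ)
    (D : κ → (κ → ℝ) → ℝ) : Prop where
  k0 : 0 < k2
  b0 : 0 ≤ b
  kN : k2 * N = ρ
  sq_f : ∀ t z, sq x t F D z = k2 * f t z - b

namespace Sz

variable (S : Sz x k2 b N ρ f F D)

include S

lemma f_eq (t : ℝ) (z : κ → ℝ) : f t z = (sq x t F D z + b) / k2 := by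
  have := S.k0
  rw [S.sq_f, sub_add_cancel, mul_div_cancel_left₀ _ this.ne']

lemma eg (h : C11 F D B L) (hx : 0 < x) (t : ℝ) : EG (f t) := by
  have e : f t = fun z => 1 / k2 * (sq x t F D z + b) := by
    funext z
    rw [S.f_eq]
    ring
  rw [e]
  exact ((eg_sq h hx t).add (EG.const b)).const_mul _

open Classical in
lemma eg_gt (h : C11 F D B L) (hx : 0 < x) (t c : ℝ) :
    EG fun z => if c < f t z then (1 : ℝ) else 0 := by
  refine EG.of_bdd (C := 1) (Measurable.ite (measurableSet_lt measurable_const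
    (S.eg h hx t).meas) measurable_const measurable_const) fun z => ?_
  split_ifs <;> simp

open Classical in
lemma eg_lt (h : C11 F D B L) (hx : 0 < x) (t c : ℝ) :
    EG fun z => if f t z < c then (1 : ℝ) else 0 := by
  refine EG.of_bdd (C := 1) (Measurable.ite (measurableSet_lt (S.eg h hx t).meas
    measurable_const) measurable_const measurable_const) fun z => ?_
  split_ifs <;> simp

lemma nonneg (x0 : 0 < x) (t : ℝ) (z : κ → ℝ) : 0 ≤ f t z := by
  rw [S.f_eq]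
  have h1 := sq_nonneg' x t F D z
  have := S.b0
  have := S.k0
  positivity

open Classical in
/-- a large size is a large gradient -/
lemma up_imp (hρ1 : 1 ≤ ρ) (t : ℝ) (z : κ → ℝ) :
    (if A * N < f t z then (1 : ℝ) else 0) ≤
      if (A - b) * ρ ≤ sq x t F D z then (1 : ℝ) else 0 := by
  by_cases h1 : A * N < f t z
  · rw [if_pos h1, if_pos]
    have h2 := mul_lt_mul_of_pos_left h1 S.k0
    have h3 := S.kN
    have h4 : k2 * (A * N) = A * ρ := by rw [← h3]; ring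
    rw [S.sq_f]
    have h5 := mul_le_mul_of_nonneg_left hρ1 S.b0
    linarith
  · rw [if_neg h1]
    split_ifs <;> norm_num

open Classical in
/-- a small size is a small gradient -/
lemma lo_imp (hρ0 : 0 < ρ) (hA : 256 ≤ A) (t : ℝ) (z : κ → ℝ) :
    (if f t z < N / A then (1 : ℝ) else 0) ≤
      if sq x t F D z ≤ ρ / 256 then (1 : ℝ) else 0 := by
  by_cases h1 : f t z < N / A
  · rw [if_pos h1, if_pos]
    have h2 := mul_le_mul_of_nonneg_left h1.le S.k0.le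
    have h3 := S.kN
    have h4 : k2 * (N / A) = ρ / A := by rw [← h3]; ring
    have h5 : ρ / A ≤ ρ / 256 := div_le_div_of_nonneg_left hρ0.le (by norm_num) hA
    rw [S.sq_f]
    have := S.b0
    linarith
  · rw [if_neg h1]
    split_ifs <;> norm_num

/-- the powers -/
lemma pow_le (p : ℕ) (t : ℝ) (z : κ → ℝ) :
    f t z ^ p ≤ (2 / k2) ^ p * (sq x t F D z ^ p + b ^ p) := by
  have hk := S.k0
  have hb := S.b0
  have h1 := sq_nonneg' x t F D z
  have h2 : f t z ^ p ≤ (2 / k2 * max (sq x t F D z) b) ^ p := by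
    have h3 : 0 ≤ f t z := by rw [S.f_eq]; positivity
    refine pow_le_pow_left₀ h3 ?_ p
    rw [S.f_eq, div_mul_eq_mul_div]
    refine div_le_div_of_nonneg_right ?_ hk.le
    have := le_max_left (sq x t F D z) b
    have := le_max_right (sq x t F D z) b
    linarith
  refine h2.trans ?_
  rw [mul_pow]
  refine mul_le_mul_of_nonneg_left ?_ (by positivity)
  rcases max_choice (sq x t F D z) b with h3 | h3
  · rw [h3]
    have : 0 ≤ b ^ p := by positivity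
    linarith
  · rw [h3]
    have : 0 ≤ sq x t F D z ^ p := by positivity
    linarith

end Sz

/-- the tilt of a regular datum -/
noncomputable def thr (η Λ : ℝ) : ℝ := (1 - η) / (64 * Λ)

lemma thr_x {x η T ρ Λ : ℝ} (hΛ : 1 ≤ Λ) :
    thr η Λ * (x ^ 2 * ρ * T) / 16 = yy x η T ρ / (1024 * Λ) := by
  unfold thr yy
  have : Λ ≠ 0 := by positivity
  field_simp
  ring

section

variable (r : Reg x η T ρ Λ F) (S : Sz x k2 b N ρ f F D) (h : C11 F D B L) (hc : Cv F)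
  (hρ1 : 1 ≤ ρ) (hA : 256 + 18 * Λ + 2 * b ≤ A)
  (hδ : 3 * Real.exp (-(yy x η T ρ / (1024 * Λ))) ≤ δ)

include r

lemma Reg.thr : Th (thr η Λ) η Λ := th_of r.η1 r.Λ1

lemma Reg.thr_le : R1.thr η Λ ≤ 1 / 64 := r.thr.le1 r r.Λ1 r.η0

lemma Reg.Λpos : 0 < Λ := by linarith [r.Λ1]

include h hc hδ

include S hρ1 hA

lemma Reg.up_err (hb : 0 ≤ b) : Real.exp (-(yy x η T ρ * (A - b) / 64)) ≤ δ := by
  refine le_trans ?_ hδ
  have hy := r.yy0
  have hΛ := r.Λ1
  have h1 : Real.exp (-(yy x η T ρ * (A - b) / 64)) ≤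
      Real.exp (-(yy x η T ρ / (1024 * Λ))) := by
    refine Real.exp_le_exp.2 ?_
    have h2 : yy x η T ρ / (1024 * Λ) ≤ yy x η T ρ / 64 :=
      div_le_div_of_nonneg_left hy.le (by norm_num) (by linarith)
    have h3 : yy x η T ρ * 1 ≤ yy x η T ρ * (A - b) :=
      mul_le_mul_of_nonneg_left (by linarith) hy.le
    linarith
  have := Real.exp_pos (-(yy x η T ρ / (1024 * Λ)))
  linarith

open Classical in
/-- **up at the time `t0`** -/
theorem Reg.fup0 (h1 : 1 - T / 2 ≤ s) (hs : s ≤ 1) :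
    Et x (R1.thr η Λ) η (1 - T) (1 - T / 2) s F
      (fun z0 _ _ => if A * N < f (1 - T) z0 then (1 : ℝ) else 0) ≤ δ := by
  have hb := S.b0
  have hΛ := r.Λ1
  refine (Et_mono h r.x0 (E3.of0 (S.eg_gt h r.x0 (1 - T) (A * N)))
    (E3.of0 (eg_ind_ge h r.x0 (1 - T) ((A - b) * ρ))) fun z0 _ _ => S.up_imp hρ1 _ z0).trans ?_
  exact (r.up_0 r.thr h hc h1 hs (M := A - b) (by linarith)).trans
    (r.up_err S h hc hρ1 hA hδ hb)

open Classical in
/-- **up at the time `t1`** -/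
theorem Reg.fup1 (h1 : 1 - T / 2 ≤ s) (hs : s ≤ 1) :
    Et x (R1.thr η Λ) η (1 - T) (1 - T / 2) s F
      (fun _ z1 _ => if A * N < f (1 - T / 2) z1 then (1 : ℝ) else 0) ≤ δ := by
  have hb := S.b0
  have hΛ := r.Λ1
  refine (Et_mono h r.x0 (E3.of1 (S.eg_gt h r.x0 (1 - T / 2) (A * N)))
    (E3.of1 (eg_ind_ge h r.x0 (1 - T / 2) ((A - b) * ρ))) fun _ z1 _ =>
      S.up_imp hρ1 _ z1).trans ?_
  exact (r.up_1 r.thr h hc h1 hs (M := A - b) (by linarith)).trans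
    (r.up_err S h hc hρ1 hA hδ hb)

open Classical in
/-- **up at the time `s`** -/
theorem Reg.fup2 (h1 : 1 - T / 2 ≤ s) (hs : s ≤ 1 - T / 8) :
    Et x (R1.thr η Λ) η (1 - T) (1 - T / 2) s F
      (fun _ _ z2 => if A * N < f s z2 then (1 : ℝ) else 0) ≤ δ := by
  have hb := S.b0
  have hΛ := r.Λ1
  refine (Et_mono h r.x0 (E3.of2 (S.eg_gt h r.x0 s (A * N)))
    (E3.of2 (eg_ind_ge h r.x0 s ((A - b) * ρ))) fun _ _ z2 =>
      S.up_imp hρ1 _ z2).trans ?_
  exact (r.up_s r.thr h hc h1 hs (M := A - b) (by linarith)).trans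
    (r.up_err S h hc hρ1 hA hδ hb)

open Classical in
/-- **low at the time `s`** -/
theorem Reg.flo2 (h1 : 1 - T / 2 ≤ s) (hs : s ≤ 1) :
    Et x (R1.thr η Λ) η (1 - T) (1 - T / 2) s F
      (fun _ _ z2 => if f s z2 < N / A then (1 : ℝ) else 0) ≤ δ := by
  have hb := S.b0
  have hΛ := r.Λ1
  refine (Et_mono h r.x0 (E3.of2 (S.eg_lt h r.x0 s (N / A)))
    (e3_ind_sq2 h r.x0 s (ρ / 256)) fun _ _ z2 =>
      S.lo_imp r.ρ0 (by linarith) _ z2).trans ?_
  refine (r.low_tail r.thr h hc h1 hs).trans ?_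
  rw [thr_x hΛ]
  exact hδ

omit hδ in
lemma Reg.pow_const (p : ℕ) : (2 / k2) ^ p * ((9 * Λ * ρ) ^ p + b ^ p) ≤ 2 * (A * N) ^ p := by
  have hb := S.b0
  have hΛ := r.Λ1
  have hk := S.k0
  have hρ := r.ρ0
  have e1 : A * N = 2 / k2 * (A / 2 * ρ) := by
    rw [← S.kN]
    field_simp
  rw [e1, mul_pow (2 / k2)]
  have h1 : (9 * Λ * ρ) ^ p ≤ (A / 2 * ρ) ^ p := by
    refine pow_le_pow_left₀ (by positivity) (mul_le_mul_of_nonneg_right (by linarith) hρ.le) p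
  have h2 : b ^ p ≤ (A / 2 * ρ) ^ p := by
    refine pow_le_pow_left₀ hb ?_ p
    have h3 : A / 2 * 1 ≤ A / 2 * ρ := mul_le_mul_of_nonneg_left hρ1 (by linarith)
    linarith
  have h3 := mul_le_mul_of_nonneg_left (add_le_add h1 h2) (by positivity : 0 ≤ (2 / k2) ^ p)
  refine h3.trans (le_of_eq ?_)
  ring

omit hδ in
/-- **moments at the time `s`** -/
theorem Reg.fmo2 (h1 : 1 - T / 2 ≤ s) (hs : s ≤ 1 - T / 8) (p : ℕ)
    (hp : 4 * (p : ℝ) ≤ yy x η T ρ) :
    Et x (R1.thr η Λ) η (1 - T) (1 - T / 2) s F (fun _ _ z2 => f s z2 ^ p) ≤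
      2 * (A * N) ^ p := by
  have hk := S.k0
  refine (Et_mono h r.x0 ((E3.of2 (S.eg h r.x0 s)).pow p)
    ((((E3.of2 (eg_sq h r.x0 s)).pow p).add (E3.const (b ^ p))).const_mul ((2 / k2) ^ p))
    fun _ _ z2 => S.pow_le p s z2).trans ?_
  rw [Et_const_mul, Et_add h r.x0 ((E3.of2 (eg_sq h r.x0 s)).pow p) (E3.const (b ^ p)),
    Et_const h r.x0]
  refine le_trans ?_ (r.pow_const S h hc hρ1 hA p)
  exact mul_le_mul_of_nonneg_left (add_le_add_left (r.mom_s r.thr h hc h1 hs p hp) _)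
    (by positivity)

omit hδ in
/-- **moments at the time `t1`** -/
theorem Reg.fmo1 (h1 : 1 - T / 2 ≤ s) (hs : s ≤ 1) (p : ℕ)
    (hp : 4 * (p : ℝ) ≤ yy x η T ρ) :
    Et x (R1.thr η Λ) η (1 - T) (1 - T / 2) s F (fun _ z1 _ => f (1 - T / 2) z1 ^ p) ≤
      2 * (A * N) ^ p := by
  have hk := S.k0
  refine (Et_mono h r.x0 ((E3.of1 (S.eg h r.x0 _)).pow p)
    ((((E3.of1 (eg_sq h r.x0 _)).pow p).add (E3.const (b ^ p))).const_mul ((2 / k2) ^ p))
    fun _ z1 _ => S.pow_le p _ z1).trans ?_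
  rw [Et_const_mul, Et_add h r.x0 ((E3.of1 (eg_sq h r.x0 _)).pow p) (E3.const (b ^ p)),
    Et_const h r.x0]
  refine le_trans ?_ (r.pow_const S h hc hρ1 hA p)
  exact mul_le_mul_of_nonneg_left (add_le_add_left (r.mom_1 r.thr h hc h1 hs p hp) _)
    (by positivity)

omit hδ in
/-- **moments at the time `t0`** -/
theorem Reg.fmo0 (h1 : 1 - T / 2 ≤ s) (hs : s ≤ 1) (p : ℕ)
    (hp : 4 * (p : ℝ) ≤ yy x η T ρ) :
    Et x (R1.thr η Λ) η (1 - T) (1 - T / 2) s F (fun z0 _ _ => f (1 - T) z0 ^ p) ≤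
      2 * (A * N) ^ p := by
  have hk := S.k0
  refine (Et_mono h r.x0 ((E3.of0 (S.eg h r.x0 _)).pow p)
    ((((E3.of0 (eg_sq h r.x0 _)).pow p).add (E3.const (b ^ p))).const_mul ((2 / k2) ^ p))
    fun z0 _ _ => S.pow_le p _ z0).trans ?_
  rw [Et_const_mul, Et_add h r.x0 ((E3.of0 (eg_sq h r.x0 _)).pow p) (E3.const (b ^ p)),
    Et_const h r.x0]
  refine le_trans ?_ (r.pow_const S h hc hρ1 hA p)
  exact mul_le_mul_of_nonneg_left (add_le_add_left (r.mom_0 r.thr h hc h1 hs p hp) _)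
    (by positivity)

end

/-! ### the numbers -/

/-- `3 exp (- Lam / (1024 Λ)) ≤ Lam ^ (-1000)` if `Lam ≥ A^200` and `A` is large. -/
theorem err_num (Λ : ℝ) (hΛ : 1 ≤ Λ) : ∃ A₀ : ℝ, 1 ≤ A₀ ∧ ∀ A Lam y : ℝ, A₀ ≤ A →
    A ^ 200 ≤ Lam → Lam ≤ y → 3 * Real.exp (-(y / (1024 * Λ))) * Lam ^ 1000 ≤ 1 := by
  have h1 : Filter.Tendsto (fun u : ℝ => u ^ 1000 * Real.exp (-(1 / (1024 * Λ)) * u))
      Filter.atTop (nhds 0) := by
    have := tendsto_rpow_mul_exp_neg_mul_atTop_nhds_zero 1000 (1 / (1024 * Λ)) (by positivity)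
    refine this.congr fun u => ?_
    norm_cast
  have h2 := h1.eventually (gt_mem_nhds (show (0 : ℝ) < 1 / 3 by norm_num))
  obtain ⟨u₀, hu⟩ := Filter.eventually_atTop.1 h2
  refine ⟨max 1 u₀, le_max_left _ _, fun A Lam y hA hAL hLy => ?_⟩
  have hA1 : 1 ≤ A := (le_max_left _ _).trans hA
  have hAL' : A ≤ Lam := by
    refine le_trans ?_ hAL
    calc A = A ^ 1 := (pow_one A).symm
      _ ≤ A ^ 200 := pow_le_pow_right₀ hA1 (by norm_num)
  have h3 := hu Lam (((le_max_right _ _).trans hA).trans hAL')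
  have h4 : Real.exp (-(y / (1024 * Λ))) ≤ Real.exp (-(1 / (1024 * Λ)) * Lam) := by
    refine Real.exp_le_exp.2 ?_
    have : Lam / (1024 * Λ) ≤ y / (1024 * Λ) := by gcongr
    calc -(y / (1024 * Λ)) ≤ -(Lam / (1024 * Λ)) := by linarith
      _ = _ := by ring
  have h5 : 0 ≤ Lam ^ 1000 := by
    have : 0 ≤ Lam := by linarith
    positivity
  have h6 := mul_le_mul_of_nonneg_right h4 h5
  nlinarith

end Vale.Agent.P146.U.R1
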