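import Vale.Agent.P146.U.H645_CSys
import Vale.Agent.P146.H325.Fo
import Vale.Agent.P146.U.H622.F1e

/-!
The output of F1 at a position system `S : CS n k x`, in the letters of `Fo`: sizes at the four
times, all moments, at a regular datum with the tilt `θ = (1-η)/(64 Λ)`.
-/

open MeasureTheory ProbabilityTheory

namespace Vale.Agent.P146.U.R1S

open Vale.Agent.P146.R1S hiding CS

open Vale.Agent.P157.Lv Vale.Agent.P146.H425 Vale.Agent.P146.H325 Vale.Agent.P146.H712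
  Vale.Agent.P146.H816 Matrix
open Vale.Agent.P146.H332 hiding NN
open Vale.Agent.P146.R1 hiding Et Et4 Et4_123 Et4_124 Et4_add Et4_const Et4_const_mul Et4_cs
  Et4_mono Et4_nonneg Et4_sub Et_add Et_const Et_const_mul Et_cs Et_fst_eq Et_jensen Et_mono
  Et_nonneg Et_sub Et_weight Et_zero Eu Eu4 Eu4_123 Eu4_124 Eu4_add Eu4_cond Eu4_const_mul
  Eu4_iter Eu4_mono Eu4_nonneg Eu4_one_eq Eu4_one_eq' Eu4_one_pos Eu4_weight Eu_add Eu_const_mul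
  Eu_fst Eu_fst_eq Eu_iter Eu_mono Eu_nonneg Eu_one Eu_one_eq Eu_one_pos Eu_weight Eu_zero
  Eu_zero_one Lth Lth_zero Qt dn dn_pos e3_dn eg_Eu eg_Eu4 Lth_le Lth_ge Lth_nonneg Lth_half
  Et_xi_low tilt Ex_xi_ge
open Vale.Agent.P146.R1C hiding Ca Cd En En_add En_const En_const_mul En_eq En_mono En_nonneg
  En_pow_le Ew Ew1_pos Ew_add Ew_const_mul Ew_eq Ew_mono Ew_nonneg Fo Fo.N0 Fo.NN_le Fo.Tp Fo.mom
  Fo.n0 Fo.xr Fo.ρ1 Fo.ρA Gb Nd P0 P0_sw P1 P1_sw P2 P2_sw P3 P3_sw Par Par.Ok Sa Sd den_pos dens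
  eg_den kk_NN
open Vale.Agent.P146.U.R1 Vale.Agent.P146.U.R1C

set_option linter.unusedSectionVars false

/-! ### means of functions of one position -/

section one

variable {κ : Type} [Fintype κ] [DecidableEq κ] {q : Par} {F : (κ → ℝ) → ℝ}
  {D : κ → (κ → ℝ) → ℝ} {B L : ℝ} {ψ : (κ → ℝ) → ℝ}

lemma En_0 (h : C11 F D B L) (hq : Par.Ok q) (hψ : EG ψ) :
    En q F (fun w => ψ (P0 q w)) =
      Et q.x q.θ q.η q.t0 q.t1 q.s1 F (fun z0 _ _ => ψ z0) :=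
  (En_eq q F fun z0 _ _ _ => ψ z0).trans (Et4_123 h hq.x0 (E3.of0 hψ) hq.h12 hq.h2)

lemma En_1 (h : C11 F D B L) (hq : Par.Ok q) (hψ : EG ψ) :
    En q F (fun w => ψ (P1 q w)) =
      Et q.x q.θ q.η q.t0 q.t1 q.s1 F (fun _ z1 _ => ψ z1) :=
  (En_eq q F fun _ z1 _ _ => ψ z1).trans (Et4_123 h hq.x0 (E3.of1 hψ) hq.h12 hq.h2)

lemma En_2 (h : C11 F D B L) (hq : Par.Ok q) (hψ : EG ψ) :
    En q F (fun w => ψ (P2 q w)) =
      Et q.x q.θ q.η q.t0 q.t1 q.s1 F (fun _ _ z2 => ψ z2) :=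
  (En_eq q F fun _ _ z2 _ => ψ z2).trans (Et4_123 h hq.x0 (E3.of2 hψ) hq.h12 hq.h2)

lemma En_3 (h : C11 F D B L) (hq : Par.Ok q) (hψ : EG ψ) :
    En q F (fun w => ψ (P3 q w)) =
      Et q.x q.θ q.η q.t0 q.t1 q.s2 F (fun _ _ z2 => ψ z2) :=
  (En_eq q F fun _ _ _ z3 => ψ z3).trans (Et4_124 h hq.x0 (E3.of2 hψ) hq.h1 hq.h12)

end one

lemma kk_sq' {n : ℕ} (hn : 0 < n) (β : ℝ) : kk n β ^ 2 * n = β ^ 2 := by
  have h : (0 : ℝ) < n := Nat.cast_pos.2 hn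
  unfold kk
  rw [div_pow, Real.sq_sqrt h.le]
  field_simp

lemma kk_N {n : ℕ} (hn : 0 < n) {β : ℝ} (hβ : 0 < β) (ρ : ℝ) :
    kk n β ^ 2 / 2 * NN n β ρ = ρ := by
  have h : (0 : ℝ) < n := Nat.cast_pos.2 hn
  unfold kk NN
  rw [div_pow, Real.sq_sqrt h.le]
  field_simp

/-- The sizes of a position system. -/
lemma sz_S {n : ℕ} {β x : ℝ} (hn : 0 < n) (hβ : 0 < β) (S : CS n (kk n β) x) (ρ : ℝ) :
    Sz x (kk n β ^ 2 / 2) (β ^ 2 / 2) (NN n β ρ) ρ (fun t z => fr (S.A t z)) S.F S.D := by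
  have hk := S.k0
  refine ⟨by positivity, by positivity, kk_N hn hβ ρ, fun t z => ?_⟩
  rw [S.sq_A, mul_sub, ← kk_sq' hn β]
  ring

/-- **The output of F1 in the letters of `Fo`.** -/
structure FoF (n : ℕ) (β A δ T ρ : ℝ) (q : Par) (F : (Pair n → ℝ) → ℝ)
    (AM : ℝ → (Pair n → ℝ) → Matrix (Fin n) (Fin n) ℝ) : Prop where
  up0 : En q F (fun w => if A * NN n β ρ < fr (AM q.t0 (P0 q w)) then (1 : ℝ) else 0) ≤ δ
  up1 : En q F (fun w => if A * NN n β ρ < fr (AM q.t1 (P1 q w)) then (1 : ℝ) else 0) ≤ δ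
  up2 : En q F (fun w => if A * NN n β ρ < fr (AM q.s1 (P2 q w)) then (1 : ℝ) else 0) ≤ δ
  up3 : En q F (fun w => if A * NN n β ρ < fr (AM q.s2 (P3 q w)) then (1 : ℝ) else 0) ≤ δ
  lo2 : En q F (fun w => if fr (AM q.s1 (P2 q w)) < NN n β ρ / A then (1 : ℝ) else 0) ≤ δ
  lo3 : En q F (fun w => if fr (AM q.s2 (P3 q w)) < NN n β ρ / A then (1 : ℝ) else 0) ≤ δ
  mo0 : ∀ p : ℕ, 4 * (p : ℝ) ≤ yy q.x q.η T ρ →
    En q F (fun w => fr (AM q.t0 (P0 q w)) ^ p) ≤ 2 * (A * NN n β ρ) ^ p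
  mo1 : ∀ p : ℕ, 4 * (p : ℝ) ≤ yy q.x q.η T ρ →
    En q F (fun w => fr (AM q.t1 (P1 q w)) ^ p) ≤ 2 * (A * NN n β ρ) ^ p
  mo2 : ∀ p : ℕ, 4 * (p : ℝ) ≤ yy q.x q.η T ρ →
    En q F (fun w => fr (AM q.s1 (P2 q w)) ^ p) ≤ 2 * (A * NN n β ρ) ^ p
  mo3 : ∀ p : ℕ, 4 * (p : ℝ) ≤ yy q.x q.η T ρ →
    En q F (fun w => fr (AM q.s2 (P3 q w)) ^ p) ≤ 2 * (A * NN n β ρ) ^ p
  mo : ∀ s, q.t1 ≤ s → s ≤ 1 - T / 8 → ∀ p : ℕ, 4 * (p : ℝ) ≤ yy q.x q.η T ρ →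
    Et q.x q.θ q.η q.t0 q.t1 s F (fun _ _ z2 => fr (AM s z2) ^ p) ≤ 2 * (A * NN n β ρ) ^ p

/-- **F1 at a position system.** `Λ` is the regularity constant of the datum. -/
theorem foF_of {n : ℕ} {β A δ T ρ Λ : ℝ} {q : Par} (hn : 0 < n) (hβ : 0 < β)
    (S : CS n (kk n β) q.x) (hq : Par.Ok q) (r : Reg q.x q.η T ρ Λ S.F)
    (hθ : q.θ = thr q.η Λ) (ht0 : q.t0 = 1 - T) (ht1 : q.t1 = 1 - T / 2)
    (hs2 : q.s2 ≤ 1 - T / 8) (hρ1 : 1 ≤ ρ) (hA : 256 + 18 * Λ + β ^ 2 ≤ A)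
    (hδ : 3 * Real.exp (-(yy q.x q.η T ρ / (1024 * Λ))) ≤ δ) :
    FoF n β A δ T ρ q S.F S.A := by
  classical
  have hT := r.T0
  have hA' : 256 + 18 * Λ + 2 * (β ^ 2 / 2) ≤ A := by linarith
  have Z := sz_S hn hβ S ρ
  have h := S.c11
  have hc := S.cv
  have h1 := hq.h1
  have h12 := hq.h12
  have hx := hq.x0
  have eg : ∀ t, EG fun z => fr (S.A t z) := fun t => Z.eg h hx t
  have eu : ∀ t c, EG fun z => if c < fr (S.A t z) then (1 : ℝ) else 0 := fun t c =>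
    Z.eg_gt h hx t c
  have el : ∀ t c, EG fun z => if fr (S.A t z) < c then (1 : ℝ) else 0 := fun t c =>
    Z.eg_lt h hx t c
  have i1 : 1 - T / 2 ≤ q.s1 := by rw [← ht1]; exact h1
  have i2 : 1 - T / 2 ≤ q.s2 := i1.trans h12
  have j1 : q.s1 ≤ 1 - T / 8 := h12.trans hs2
  have j1' : q.s1 ≤ 1 := by linarith
  have j2' : q.s2 ≤ 1 := by linarith
  refine ⟨?_, ?_, ?_, ?_, ?_, ?_, fun p hp => ?_, fun p hp => ?_, fun p hp => ?_,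
    fun p hp => ?_, fun s a1 a2 p hp => ?_⟩
  · refine (En_0 h hq (eu q.t0 _)).trans_le ?_
    rw [hθ, ht0, ht1]
    exact r.fup0 Z h hc hρ1 hA' hδ i1 j1'
  · refine (En_1 h hq (eu q.t1 _)).trans_le ?_
    rw [hθ, ht0, ht1]
    exact r.fup1 Z h hc hρ1 hA' hδ i1 j1'
  · refine (En_2 h hq (eu q.s1 _)).trans_le ?_
    rw [hθ, ht0, ht1]
    exact r.fup2 Z h hc hρ1 hA' hδ i1 j1
  · refine (En_3 h hq (eu q.s2 _)).trans_le ?_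
    rw [hθ, ht0, ht1]
    exact r.fup2 Z h hc hρ1 hA' hδ i2 hs2
  · refine (En_2 h hq (el q.s1 _)).trans_le ?_
    rw [hθ, ht0, ht1]
    exact r.flo2 Z h hc hρ1 hA' hδ i1 j1'
  · refine (En_3 h hq (el q.s2 _)).trans_le ?_
    rw [hθ, ht0, ht1]
    exact r.flo2 Z h hc hρ1 hA' hδ i2 j2'
  · refine (En_0 h hq ((eg q.t0).pow p)).trans_le ?_
    rw [hθ, ht0, ht1]
    exact r.fmo0 Z h hc hρ1 hA' i1 j1' p hp
  · refine (En_1 h hq ((eg q.t1).pow p)).trans_le ?_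
    rw [hθ, ht0, ht1]
    exact r.fmo1 Z h hc hρ1 hA' i1 j1' p hp
  · refine (En_2 h hq ((eg q.s1).pow p)).trans_le ?_
    rw [hθ, ht0, ht1]
    exact r.fmo2 Z h hc hρ1 hA' i1 j1 p hp
  · refine (En_3 h hq ((eg q.s2).pow p)).trans_le ?_
    rw [hθ, ht0, ht1]
    exact r.fmo2 Z h hc hρ1 hA' i2 hs2 p hp
  · rw [ht1] at a1
    rw [hθ, ht0, ht1]
    exact r.fmo2 Z h hc hρ1 hA' a1 a2 p hp

end Vale.Agent.P146.U.R1S
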