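import Vale.Agent.P146.U.H622.F1b

/-!
The mean of `x ξ` under `P_{0,η}` is the mean entropy of the slice `[t0, t1]`, and it is at least
`x (PP_{t0} - PP_{t1})`: the increment of the functional between the two switching times.
-/

open MeasureTheory ProbabilityTheory

namespace Vale.Agent.P146.U.R1

open Vale.Agent.P157.Lv Vale.Agent.P146.H425 Vale.Agent.P146.R1 Vale.Agent.P146.H327

set_option linter.unusedSectionVars false

variable {κ : Type} [Fintype κ] {F : (κ → ℝ) → ℝ} {D : κ → (κ → ℝ) → ℝ}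
  {B L x θ η t0 t1 s t m K : ℝ}

/-- the inner mean of `x ξ` is the entropy -/
lemma inner_xi_eq (h : C11 F D B L) (hx : 0 < x) (h01 : t0 ≤ t1) (h1 : t1 ≤ 1) (z : κ → ℝ) :
    ∫ y, Real.exp (x * uu x t1 F (z + √(t1 - t0) • y)) *
        xi x t0 t1 F z (z + √(t1 - t0) • y) ∂(gI κ) =
      Real.exp (x * uu x t0 F z) * Kc x (√(t1 - t0)) (uu x t1 F) z := by
  have hU := c11_uu h hx t1
  have hE := Real.exp_pos (x * uu x t0 F z)
  unfold Kc KL
  rw [uu_step h hx h01 h1 z, Real.log_exp]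
  set E0 := Real.exp (x * uu x t0 F z) with hE0
  set I1 := ∫ y, Real.exp (x * uu x t1 F (z + √(t1 - t0) • y)) *
    uu x t1 F (z + √(t1 - t0) • y) ∂(gI κ) with hI1
  have e1 : ∫ y, Real.exp (x * uu x t1 F (z + √(t1 - t0) • y)) *
        xi x t0 t1 F z (z + √(t1 - t0) • y) ∂(gI κ) = x * I1 - x * uu x t0 F z * E0 := by
    have i1 : Integrable (fun y => Real.exp (x * uu x t1 F (z + √(t1 - t0) • y)) *
        uu x t1 F (z + √(t1 - t0) • y)) (gI κ) :=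
      (EG.add_smul ((hU.eg_exp x).mul hU.eg) z _).integrable
    have i2 := (eg_inner (t1 := t1) h hx x z (√(t1 - t0))).integrable
    rw [hI1, hE0, ← uu_step h hx h01 h1 z, ← integral_const_mul, ← integral_const_mul,
      ← integral_sub (i1.const_mul _) (i2.const_mul _)]
    refine integral_congr_ae (Filter.Eventually.of_forall fun y => ?_)
    simp only [xi]
    ring
  rw [e1]
  field_simp

/-- **The mean of `x ξ` under `P_{0,η}` is the mean entropy.** -/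
theorem Ex_xi_eq (h : C11 F D B L) (hx : 0 < x) (h01 : t0 ≤ t1) (h1 : t1 ≤ s)
    (hs : s ≤ 1) : Et x 0 η t0 t1 s F (fun z0 z1 _ => xi x t0 t1 F z0 z1) =
      Mn ((1 - η) * x) (√t0) (uu x t0 F) (Kc x (√(t1 - t0)) (uu x t1 F)) 0 := by
  have h1' : t1 ≤ 1 := h1.trans hs
  have hU := c11_uu h hx t1
  have hK : EG (Kc x (√(t1 - t0)) (uu x t1 F)) := eg_Kc hU hx
  have h2 := Et_zero0 (η := η) h hx hK h01 h1 hs
  unfold EE at h2
  have e : W x (√(1 - t0)) F = uu x t0 F := rfl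
  rw [e] at h2
  rw [← h2]
  unfold Et
  congr 1
  rw [Eu_zero0 h hx hK h01 h1 hs, Eu_fst h hx (e3_xi h hx t0 t1) h1 hs]
  refine integral_congr_ae (Filter.Eventually.of_forall fun y0 => ?_)
  simp only
  have e5 : (∫ y1, Real.exp (x * uu x t1 F (√t0 • y0 + √(t1 - t0) • y1) +
        0 * xi x t0 t1 F (√t0 • y0) (√t0 • y0 + √(t1 - t0) • y1) -
        η * (x * uu x t0 F (√t0 • y0))) *
      xi x t0 t1 F (√t0 • y0) (√t0 • y0 + √(t1 - t0) • y1) ∂(gI κ)) =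
      Real.exp (-(η * x) * uu x t0 F (√t0 • y0)) *
        ∫ y1, Real.exp (x * uu x t1 F (√t0 • y0 + √(t1 - t0) • y1)) *
          xi x t0 t1 F (√t0 • y0) (√t0 • y0 + √(t1 - t0) • y1) ∂(gI κ) := by
    rw [← integral_const_mul]
    refine integral_congr_ae (Filter.Eventually.of_forall fun y1 => ?_)
    simp only
    rw [← mul_assoc (Real.exp (-(η * x) * uu x t0 F (√t0 • y0))), ← Real.exp_add]
    congr 2
    ring
  rw [e5, inner_xi_eq h hx h01 h1', ← mul_assoc, ← Real.exp_add]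
  congr 2
  ring

/-- **The increment of the functional between two switching times.** -/
theorem Ex_xi_incr (h : C11 F D B L) (hc : Cv F) (hx : 0 < x) (hη0 : 0 ≤ η) (hη : η < 1)
    (h0 : 0 ≤ t0) (h01 : t0 ≤ t1) (h1 : t1 ≤ s) (hs : s ≤ 1) :
    x * (PP ((1 - η) * x) x (√t0) (√(1 - t0)) F - PP ((1 - η) * x) x (√t1) (√(1 - t1)) F) ≤
      η * Et x 0 η t0 t1 s F (fun z0 z1 _ => xi x t0 t1 F z0 z1) := by
  have h1' : t1 ≤ 1 := h1.trans hs
  have hy : 0 < (1 - η) * x := mul_pos (by linarith) hx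
  set X := W x (√(1 - t1)) F with hX
  set r := √(t1 - t0) with hr
  have hXC : C11 X (DW x (√(1 - t1)) F D) B (L + 2 * x * (Fintype.card κ * B) ^ 2) := h.W' hx _
  have hXc : Cv X := Cv.W h hc hx _
  have hXl : Lip X := hXC.lip.lip h.B0
  have q0 := Real.sq_sqrt h0
  have q1 : √(t1 - t0) ^ 2 = t1 - t0 := Real.sq_sqrt (by linarith)
  have q2 : √(1 - t1) ^ 2 = 1 - t1 := Real.sq_sqrt (by linarith)
  have q3 : √(1 - t0) ^ 2 = 1 - t0 := Real.sq_sqrt (by linarith)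
  have q4 : √t1 ^ 2 = t1 := Real.sq_sqrt (by linarith)
  have hWW : W x r X = W x (√(1 - t0)) F := by
    funext y
    exact W_W h.lip h.B0 hx (by rw [hr, q1, q2, q3]; ring) y
  have hyy : PP ((1 - η) * x) x (√t1) (√(1 - t1)) F =
      W ((1 - η) * x) (√t0) (W ((1 - η) * x) r X) 0 := by
    unfold PP
    exact (W_W hXC.lip h.B0 hy (by rw [hr, q0, q1, q4]; ring) 0).symm
  have hpt : ∀ y, W x r X y ≤ W ((1 - η) * x) r X y + η / x * Kc x r X y := by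
    intro y
    have h2 := W_tangent (s := r) hXC hXc hx hy y
    have e : ((1 - η) * x - x) * (Kc x r X y / x ^ 2) = -(η / x * Kc x r X y) := by
      field_simp
      ring
    rw [e] at h2
    linarith
  have hK : EG (Kc x r X) := eg_Kc hXC hx
  have h2 := W_tan_le (Lip.W hXl hy r) (Lip.W hXl hx r) hy (hK.const_mul (η / x)) hpt (√t0) 0
  rw [Mn_const_mul, hWW, ← hyy] at h2
  rw [Ex_xi_eq h hx h01 h1 hs]
  have e2 : Mn ((1 - η) * x) (√t0) (uu x t0 F) (Kc x (√(t1 - t0)) (uu x t1 F)) 0 =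
      Mn ((1 - η) * x) (√t0) (W x (√(1 - t0)) F) (Kc x r X) 0 := rfl
  rw [e2]
  set M := Mn ((1 - η) * x) (√t0) (W x (√(1 - t0)) F) (Kc x r X) 0 with hM
  have e3 : PP ((1 - η) * x) x (√t0) (√(1 - t0)) F =
      W ((1 - η) * x) (√t0) (W x (√(1 - t0)) F) 0 := rfl
  rw [e3]
  have h3 := mul_le_mul_of_nonneg_left h2 hx.le
  have e4 : x * (PP ((1 - η) * x) x (√t1) (√(1 - t1)) F + η / x * M) =
      x * PP ((1 - η) * x) x (√t1) (√(1 - t1)) F + η * M := by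
    field_simp
  rw [e4] at h3
  linarith

lemma Ex_xi_nonneg (h : C11 F D B L) (hx : 0 < x) (h01 : t0 ≤ t1) (h1 : t1 ≤ s)
    (hs : s ≤ 1) : 0 ≤ Et x 0 η t0 t1 s F (fun z0 z1 _ => xi x t0 t1 F z0 z1) := by
  refine le_trans ?_ (Ex_xi_ge (D := D) (η := η) h hx h01 h1 hs)
  have := Ps_nonneg (x := (1 - η) * x) (c := √t0) (s := √(1 - t0)) h hx
  have : 0 ≤ t1 - t0 := by linarith
  positivity

/-- the same with the factor `1` -/
theorem Ex_xi_incr' (h : C11 F D B L) (hc : Cv F) (hx : 0 < x) (hη0 : 0 ≤ η) (hη : η < 1)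
    (h0 : 0 ≤ t0) (h01 : t0 ≤ t1) (h1 : t1 ≤ s) (hs : s ≤ 1) :
    x * (PP ((1 - η) * x) x (√t0) (√(1 - t0)) F - PP ((1 - η) * x) x (√t1) (√(1 - t1)) F) ≤
      Et x 0 η t0 t1 s F (fun z0 z1 _ => xi x t0 t1 F z0 z1) := by
  refine (Ex_xi_incr h hc hx hη0 hη h0 h01 h1 hs).trans ?_
  have := Ex_xi_nonneg (D := D) (η := η) h hx h01 h1 hs
  nlinarith

/-! ### the tilt, with a lower bound of the mean of `x ξ` as hypothesis -/

theorem Lth_ge' (h : C11 F D B L) (hx : 0 < x) (h01 : t0 ≤ t1)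
    (h1 : t1 ≤ 1) (hθ : 0 ≤ θ)
    (hm : m ≤ Et x 0 η t0 t1 t1 F (fun z0 z1 _ => xi x t0 t1 F z0 z1)) :
    θ * m ≤ Lth x θ η t0 t1 F := by
  have h2 := Et_jensen (θ := 0) (η := η) (t0 := t0) (t1 := t1) (s := t1) h hx
    ((e3_xi h hx t0 t1).const_mul θ) (e3_exp_xi h hx t0 t1 θ)
  rw [Et_exp_xi h hx h01 le_rfl h1, Et_const_mul, Real.exp_le_exp] at h2
  exact (mul_le_mul_of_nonneg_left hm hθ).trans h2

/-- Under `P_{θ,η}` the variable `x ξ` is at least half of a lower bound of its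
`P_{0,η}`-mean, up to an exponentially small probability. -/
theorem Et_xi_low' {Ψ : (κ → ℝ) → (κ → ℝ) → (κ → ℝ) → ℝ} (h : C11 F D B L) (hx : 0 < x)
    (h01 : t0 ≤ t1) (h1 : t1 ≤ s) (hs : s ≤ 1) (hθ : 0 ≤ θ)
    (hm : m ≤ Et x 0 η t0 t1 t1 F (fun z0 z1 _ => xi x t0 t1 F z0 z1))
    (hΨ : E3 Ψ) (hΨ1 : ∀ z0 z1 z2, Ψ z0 z1 z2 ≤ 1)
    (hev : ∀ z0 z1 z2, Ψ z0 z1 z2 ≠ 0 → xi x t0 t1 F z0 z1 ≤ m / 2) :
    Et x θ η t0 t1 s F Ψ ≤ Real.exp (-(θ * m / 4)) := by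
  rw [Et_weight h hx h01 h1 hs]
  have h2 : Et x 0 η t0 t1 s F (fun z0 z1 z2 => Real.exp (θ * xi x t0 t1 F z0 z1) * Ψ z0 z1 z2) ≤
      Et x 0 η t0 t1 s F (fun z0 z1 _ => Real.exp (θ * m / 4) *
        Real.exp (θ / 2 * xi x t0 t1 F z0 z1)) := by
    refine Et_mono h hx ((e3_exp_xi h hx t0 t1 θ).mul hΨ)
      ((e3_exp_xi h hx t0 t1 (θ / 2)).const_mul _) fun z0 z1 z2 => ?_
    by_cases hz : Ψ z0 z1 z2 = 0
    · rw [hz, mul_zero]; positivity
    · have h3 := hev z0 z1 z2 hz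
      calc Real.exp (θ * xi x t0 t1 F z0 z1) * Ψ z0 z1 z2 ≤
            Real.exp (θ * xi x t0 t1 F z0 z1) * 1 :=
            mul_le_mul_of_nonneg_left (hΨ1 _ _ _) (Real.exp_pos _).le
        _ ≤ Real.exp (θ * m / 4) * Real.exp (θ / 2 * xi x t0 t1 F z0 z1) := by
            rw [mul_one, ← Real.exp_add, Real.exp_le_exp]
            nlinarith
  rw [Et_const_mul, Et_exp_xi h hx h01 h1 hs] at h2
  have h3 := mul_le_mul_of_nonneg_left h2 (Real.exp_pos (-(Lth x θ η t0 t1 F))).le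
  refine h3.trans ?_
  rw [← Real.exp_add, ← Real.exp_add, Real.exp_le_exp]
  have h4 := Lth_half (θ := θ) (η := η) h hx h01 (h1.trans hs)
  have h5 := Lth_ge' (θ := θ / 2) (η := η) h hx h01 (h1.trans hs) (by positivity) hm
  linarith

open Classical in
theorem tilt' (h : C11 F D B L) (hx : 0 < x) (h01 : t0 ≤ t1)
    (h1 : t1 ≤ s) (hs : s ≤ 1) (hθ : 0 ≤ θ)
    (hm : m ≤ Et x 0 η t0 t1 t1 F (fun z0 z1 _ => xi x t0 t1 F z0 z1)) :
    Et x θ η t0 t1 s F (fun z0 z1 _ => if xi x t0 t1 F z0 z1 < m / 2 then (1 : ℝ) else 0) ≤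
      Real.exp (-(θ * m / 4)) := by
  refine Et_xi_low' h hx h01 h1 hs hθ hm (e3_ind_xi h hx t0 t1 (m / 2))
    (fun z0 z1 z2 => ?_) fun z0 z1 z2 hne => ?_
  · split_ifs <;> norm_num
  · by_contra hh
    push Not at hh
    exact hne (if_neg (not_lt.2 hh.le))

end Vale.Agent.P146.U.R1
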