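import Vale.Agent.P146.U.H622.F1c
import Vale.Agent.P146.U.H622.F1x
import Vale.Agent.P146.H327.Mom

/-!
The bounds on the law `P_{θ,η}` (exponent `x` on `[1-T,1]`, `(1-η) x` on `[0,1-T]`) at a regular
datum, with constants: `x² ρ T / 4` is a lower bound of the mean of `x ξ`, `Λ` the regularity
constant, `y = (1-η) x² ρ T` the action. Two sources of regular data: `ρ = E |D_{1-T}|²`
(`Reg.of_Ps`), or an increment of the functional between the windows `T` and `T/2`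
(`Reg.of_incr`).
-/

open MeasureTheory ProbabilityTheory

namespace Vale.Agent.P146.U.R1

open Vale.Agent.P157.Lv Vale.Agent.P146.H425 Vale.Agent.P146.R1 Vale.Agent.P146.H327

set_option linter.unusedSectionVars false

variable {κ : Type} [Fintype κ] {F : (κ → ℝ) → ℝ} {D : κ → (κ → ℝ) → ℝ}
  {B L x θ η T ρ Λ s : ℝ}

/-- **A regular datum**: window exponent `x` on `[1-T,1]`, outer exponent `(1-η) x`. -/
structure Reg (x η T ρ Λ : ℝ) (F : (κ → ℝ) → ℝ) : Prop where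
  x0 : 0 < x
  η0 : 0 ≤ η
  η1 : η < 1
  T0 : 0 < T
  T1 : T ≤ 1
  Λ1 : 1 ≤ Λ
  ρ0 : 0 < ρ
  m0 : x ^ 2 * ρ * T / 4 ≤ Et x 0 η (1 - T) (1 - T / 2) (1 - T / 2) F
    (fun z0 z1 _ => xi x (1 - T) (1 - T / 2) F z0 z1)
  reg : PP ((1 - η) * x) (2 * x) (√(1 - T)) (√T) F - PP ((1 - η) * x) x (√(1 - T)) (√T) F ≤
    x / 2 * (Λ * ρ * T)

/-- `ρ` is the mean squared gradient at the time `1 - T`. -/
theorem Reg.of_Ps (h : C11 F D B L) (hx : 0 < x) (hη0 : 0 ≤ η) (hη1 : η < 1) (hT : 0 < T)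
    (hT1 : T ≤ 1) (hΛ : 1 ≤ Λ) (hρ0 : 0 < ρ)
    (hρ : ρ = Ps ((1 - η) * x) x (√(1 - T)) (√T) F D)
    (hreg : PP ((1 - η) * x) (2 * x) (√(1 - T)) (√T) F -
      PP ((1 - η) * x) x (√(1 - T)) (√T) F ≤ x / 2 * (Λ * ρ * T)) : Reg x η T ρ Λ F := by
  refine ⟨hx, hη0, hη1, hT, hT1, hΛ, hρ0, ?_, hreg⟩
  have h2 := Ex_xi_ge (D := D) (η := η) (t0 := 1 - T) (t1 := 1 - T / 2) (s := 1 - T / 2) h hx
    (by linarith) le_rfl (by linarith)
  rw [show 1 - (1 - T) = T by ring, ← hρ] at h2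
  refine le_trans (le_of_eq ?_) h2
  ring

/-- **A regular datum by increments of the functional.** -/
theorem Reg.of_incr (h : C11 F D B L) (hc : Cv F) (hx : 0 < x) (hη0 : 0 ≤ η) (hη1 : η < 1)
    (hT : 0 < T) (hT1 : T ≤ 1) (hΛ : 1 ≤ Λ) (hρ0 : 0 < ρ)
    (hr : x / 4 * (ρ * T) ≤ PP ((1 - η) * x) x (√(1 - T)) (√T) F -
      PP ((1 - η) * x) x (√(1 - T / 2)) (√(T / 2)) F)
    (hreg : PP ((1 - η) * x) (2 * x) (√(1 - T)) (√T) F -
      PP ((1 - η) * x) x (√(1 - T)) (√T) F ≤ x / 2 * (Λ * ρ * T)) : Reg x η T ρ Λ F := by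
  refine ⟨hx, hη0, hη1, hT, hT1, hΛ, hρ0, ?_, hreg⟩
  have h2 := Ex_xi_incr' (η := η) (t0 := 1 - T) (t1 := 1 - T / 2) (s := 1 - T / 2) h hc hx hη0
    hη1 (by linarith) (by linarith) le_rfl (by linarith)
  rw [show 1 - (1 - T) = T by ring, show 1 - (1 - T / 2) = T / 2 by ring] at h2
  have h3 := mul_le_mul_of_nonneg_left hr hx.le
  refine le_trans (le_of_eq ?_) (h3.trans h2)
  ring

/-- the action -/
noncomputable def yy (x η T ρ : ℝ) : ℝ := (1 - η) * (x ^ 2 * ρ * T)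

/-- The tilt: `0 < θ ≤ (1-η)/(64 Λ)`. -/
structure Th (θ η Λ : ℝ) : Prop where
  pos : 0 < θ
  le : 64 * Λ * θ ≤ 1 - η

lemma th_of (hη : η < 1) (hΛ : 1 ≤ Λ) : Th ((1 - η) / (64 * Λ)) η Λ := by
  have : 0 < 1 - η := by linarith
  refine ⟨by positivity, le_of_eq ?_⟩
  field_simp

section

variable (r : Reg x η T ρ Λ F) (hθ : Th θ η Λ)

include r

lemma Reg.yy0 : 0 < yy x η T ρ := by
  have := r.x0; have := r.T0; have := r.ρ0; have := r.η1
  have : 0 < 1 - η := by linarith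
  unfold yy
  positivity

lemma Reg.sub : 1 - (1 - T) = T := by ring

lemma Reg.Gx_le : Gx x η (1 - T) F ≤ x ^ 2 / 2 * (Λ * ρ * T) := by
  unfold Gx
  rw [r.sub]
  refine (mul_le_mul_of_nonneg_left r.reg r.x0.le).trans (le_of_eq ?_)
  ring

lemma Reg.L0 (h : C11 F D B L) (hθ : 0 ≤ θ) : 0 ≤ Lth x θ η (1 - T) (1 - T / 2) F := by
  have := r.T0
  exact Lth_nonneg (D := D) h r.x0 (by linarith) (by linarith) hθ

include hθ

lemma Reg.L2 (h : C11 F D B L) (hc : Cv F) :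
    Lth x (2 * θ) η (1 - T) (1 - T / 2) F ≤ yy x η T ρ / 32 := by
  have hT := r.T0
  have hx := r.x0
  have hρ := r.ρ0
  have hθ0 := hθ.pos
  have hΛ := r.Λ1
  have h1 := Lth_le (θ := 2 * θ) h hc hx r.η0 r.η1 (t0 := 1 - T) (t1 := 1 - T / 2)
    (by linarith) (by linarith) (by positivity) (by
      have h2 := hθ.le
      have h3 : 64 * 1 * θ ≤ 64 * Λ * θ := by gcongr
      linarith)
  refine h1.trans ?_
  have h2 := mul_le_mul_of_nonneg_left r.Gx_le (by positivity : 0 ≤ 2 * (2 * θ))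
  refine h2.trans ?_
  have h3 : 2 * (2 * θ) * (x ^ 2 / 2 * (Λ * ρ * T)) = 64 * Λ * θ * (x ^ 2 * ρ * T) / 32 := by
    ring
  rw [h3]
  unfold yy
  have := mul_le_mul_of_nonneg_right hθ.le (by positivity : 0 ≤ x ^ 2 * ρ * T)
  linarith

lemma Th.le1 (hΛ : 1 ≤ Λ) (hη : 0 ≤ η) : θ ≤ 1 / 64 := by
  have h2 := hθ.le
  have h0 := hθ.pos
  nlinarith

/-- **(i)** the squared gradient is rarely small at the times `s ≥ 1 - T/2` -/
theorem Reg.low_tail (h : C11 F D B L) (hc : Cv F) (h1 : 1 - T / 2 ≤ s) (hs : s ≤ 1) :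
    Et x θ η (1 - T) (1 - T / 2) s F
      (fun _ _ z2 => if sq x s F D z2 ≤ ρ / 256 then (1 : ℝ) else 0) ≤
      3 * Real.exp (-(θ * (x ^ 2 * ρ * T) / 16)) := by
  have hT := r.T0
  have hx := r.x0
  have hρ := r.ρ0
  have hη := r.η0
  have hη1 := r.η1
  have hθ0 := hθ.pos
  have hθ1 : θ ≤ 1 / 64 := hθ.le1 r r.Λ1 r.η0
  have hy : 0 < x ^ 2 * ρ * T := by positivity
  have h2 := sa (s := s) h hc hx (t0 := 1 - T) (t1 := 1 - T / 2) (θ := θ) (η := η)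
    (by linarith) h1 hs (r.L0 h hθ0.le) (x ^ 2 * ρ * T / 4 / 2) (√(ρ / 256))
  rw [Real.sq_sqrt (by positivity)] at h2
  refine h2.trans ?_
  have k1 := tilt' (m := x ^ 2 * ρ * T / 4) (s := s) (η := η) h hx (t0 := 1 - T)
    (t1 := 1 - T / 2) (θ := θ) (by linarith) h1 hs hθ0.le r.m0
  have k2 : Real.exp (-(x ^ 2 * ρ * T / 4 / 2) / 2) ≤
      Real.exp (-(θ * (x ^ 2 * ρ * T) / 16)) := by
    refine Real.exp_le_exp.2 ?_
    nlinarith
  have k3 : Real.exp (Lth x (2 * θ) η (1 - T) (1 - T / 2) F / 2 - x ^ 2 * ρ * T / 4 / 2 / 4 +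
      2 * x ^ 2 * (ρ / 256) * (s - (1 - T))) ≤ Real.exp (-(θ * (x ^ 2 * ρ * T) / 16)) := by
    refine Real.exp_le_exp.2 ?_
    have h3 := r.L2 hθ h hc
    have h4 : 2 * x ^ 2 * (ρ / 256) * (s - (1 - T)) ≤ 2 * x ^ 2 * (ρ / 256) * T :=
      mul_le_mul_of_nonneg_left (by linarith) (by positivity)
    have h5 : 2 * x ^ 2 * (ρ / 256) * T = x ^ 2 * ρ * T / 128 := by ring
    have h6 : yy x η T ρ ≤ x ^ 2 * ρ * T := by
      unfold yy
      nlinarith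
    nlinarith
  have k0 : -(θ * (x ^ 2 * ρ * T / 4) / 4) = -(θ * (x ^ 2 * ρ * T) / 16) := by ring
  rw [k0] at k1
  linarith

omit hθ in
/-- the exponential moment under `P_{0,η}`, time `s` -/
lemma Reg.exp0_s (h : C11 F D B L) (hc : Cv F) (h1 : 1 - T / 2 ≤ s) (hs : s ≤ 1) :
    Et x 0 η (1 - T) (1 - T / 2) s F (fun _ _ z2 =>
      Real.exp ((1 - η) * (x ^ 2 / 2 * (1 - s)) * sq x s F D z2)) ≤
        Real.exp (yy x η T ρ * Λ / 2) := by
  have hT := r.T0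
  have hη := r.η1
  refine (ut2 h hc r.x0 r.η0 r.η1 (by linarith) h1 hs).trans (Real.exp_le_exp.2 ?_)
  refine (mul_le_mul_of_nonneg_left r.Gx_le (by linarith)).trans (le_of_eq ?_)
  unfold yy
  ring

omit hθ in
/-- the exponential moment under `P_{0,η}`, time `t0` -/
lemma Reg.exp0_0 (h : C11 F D B L) (hc : Cv F) (h1 : 1 - T / 2 ≤ s) (hs : s ≤ 1) :
    Et x 0 η (1 - T) (1 - T / 2) s F (fun z0 _ _ =>
      Real.exp ((1 - η) * (x ^ 2 / 2 * T) * sq x (1 - T) F D z0)) ≤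
        Real.exp (yy x η T ρ * Λ / 2) := by
  have hT := r.T0
  have hη := r.η1
  have h2 := ut0 h hc r.x0 r.η1 (t0 := 1 - T) (t1 := 1 - T / 2) (by linarith) h1 hs
  rw [r.sub] at h2
  refine h2.trans (Real.exp_le_exp.2 ?_)
  refine (mul_le_mul_of_nonneg_left r.Gx_le (by linarith)).trans (le_of_eq ?_)
  unfold yy
  ring

/-- the exponential moment under `P_{θ,η}`, time `s` -/
lemma Reg.exp_s (h : C11 F D B L) (hc : Cv F) (h1 : 1 - T / 2 ≤ s) (hs : s ≤ 1) :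
    Et x θ η (1 - T) (1 - T / 2) s F (fun _ _ z2 =>
      Real.exp ((1 - η) * (x ^ 2 / 2 * (1 - s)) / 2 * sq x s F D z2)) ≤
        Real.exp (yy x η T ρ * Λ * (17 / 64)) := by
  have hT := r.T0
  have hy := r.yy0
  have hΛ := r.Λ1
  have h3 : yy x η T ρ * 1 ≤ yy x η T ρ * Λ := mul_le_mul_of_nonneg_left hΛ hy.le
  refine (exp_tilt (X := fun _ _ z2 => sq x s F D z2) h r.x0 (by linarith) h1 hs
    (fun c => E3.of2 (eg_exp_sq h r.x0 s c)) (r.exp0_s h hc h1 hs)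
    (r.L0 h hθ.pos.le) (r.L2 hθ h hc)).trans (Real.exp_le_exp.2 ?_)
  linarith

/-- the exponential moment under `P_{θ,η}`, time `t0` -/
lemma Reg.exp_0 (h : C11 F D B L) (hc : Cv F) (h1 : 1 - T / 2 ≤ s) (hs : s ≤ 1) :
    Et x θ η (1 - T) (1 - T / 2) s F (fun z0 _ _ =>
      Real.exp ((1 - η) * (x ^ 2 / 2 * T) / 2 * sq x (1 - T) F D z0)) ≤
        Real.exp (yy x η T ρ * Λ * (17 / 64)) := by
  have hT := r.T0
  have hy := r.yy0
  have hΛ := r.Λ1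
  have h3 : yy x η T ρ * 1 ≤ yy x η T ρ * Λ := mul_le_mul_of_nonneg_left hΛ hy.le
  refine (exp_tilt (X := fun z0 _ _ => sq x (1 - T) F D z0) h r.x0 (by linarith) h1 hs
    (fun c => E3.of0 (eg_exp_sq h r.x0 (1 - T) c)) (r.exp0_0 h hc h1 hs)
    (r.L0 h hθ.pos.le) (r.L2 hθ h hc)).trans (Real.exp_le_exp.2 ?_)
  linarith

/-- **(ii)** all the moments of the squared gradient at the time `s ≤ 1 - T/8` -/
theorem Reg.mom_s (h : C11 F D B L) (hc : Cv F) (h1 : 1 - T / 2 ≤ s) (hs : s ≤ 1 - T / 8)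
    (p : ℕ) (hp : 4 * (p : ℝ) ≤ yy x η T ρ) :
    Et x θ η (1 - T) (1 - T / 2) s F (fun _ _ z2 => sq x s F D z2 ^ p) ≤ (9 * Λ * ρ) ^ p := by
  have hT := r.T0
  have hx := r.x0
  have hρ := r.ρ0
  have hy := r.yy0
  have hΛ := r.Λ1
  have hη : 0 < 1 - η := by linarith [r.η1]
  have hs' : 0 < 1 - s := by linarith
  have e1 : yy x η T ρ * Λ * (9 / 32) ≤
      (1 - η) * (x ^ 2 / 2 * (1 - s)) / 2 * (9 * Λ * ρ) := by
    have h2 : (1 - η) * x ^ 2 * ρ * Λ * (T / 8) ≤ (1 - η) * x ^ 2 * ρ * Λ * (1 - s) :=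
      mul_le_mul_of_nonneg_left (by linarith) (by positivity)
    unfold yy
    linarith
  have hyΛ : 0 < yy x η T ρ * Λ := by positivity
  have h3 : yy x η T ρ * 1 ≤ yy x η T ρ * Λ := mul_le_mul_of_nonneg_left hΛ hy.le
  exact mom_of_exp (X := fun _ _ z2 => sq x s F D z2) h hx (E3.of2 (eg_sq h hx s))
    (fun c => E3.of2 (eg_exp_sq h hx s c)) (fun _ _ z2 => sq_nonneg' x s F D z2)
    (by positivity) (r.exp_s hθ h hc h1 (by linarith)) (by positivity) (by linarith) p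
    (by linarith)

/-- **(ii)** all the moments of the squared gradient at the time `t1` -/
theorem Reg.mom_1 (h : C11 F D B L) (hc : Cv F) (h1 : 1 - T / 2 ≤ s) (hs : s ≤ 1)
    (p : ℕ) (hp : 4 * (p : ℝ) ≤ yy x η T ρ) :
    Et x θ η (1 - T) (1 - T / 2) s F (fun _ z1 _ => sq x (1 - T / 2) F D z1 ^ p) ≤
      (9 * Λ * ρ) ^ p := by
  have hT := r.T0
  rw [Et_one1 (ψ := fun z => sq x (1 - T / 2) F D z ^ p) h r.x0 ((eg_sq h r.x0 _).pow p) h1 hs]
  exact r.mom_s hθ h hc le_rfl (by linarith) p hp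

/-- **(ii)** all the moments of the squared gradient at the time `t0` -/
theorem Reg.mom_0 (h : C11 F D B L) (hc : Cv F) (h1 : 1 - T / 2 ≤ s) (hs : s ≤ 1)
    (p : ℕ) (hp : 4 * (p : ℝ) ≤ yy x η T ρ) :
    Et x θ η (1 - T) (1 - T / 2) s F (fun z0 _ _ => sq x (1 - T) F D z0 ^ p) ≤
      (9 * Λ * ρ) ^ p := by
  have hT := r.T0
  have hx := r.x0
  have hρ := r.ρ0
  have hy := r.yy0
  have hΛ := r.Λ1
  have hη : 0 < 1 - η := by linarith [r.η1]
  have e1 : (1 - η) * (x ^ 2 / 2 * T) / 2 * (9 * Λ * ρ) = yy x η T ρ * Λ * (9 / 4) := by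
    unfold yy
    ring
  have hyΛ : 0 < yy x η T ρ * Λ := by positivity
  have h3 : yy x η T ρ * 1 ≤ yy x η T ρ * Λ := mul_le_mul_of_nonneg_left hΛ hy.le
  exact mom_of_exp (X := fun z0 _ _ => sq x (1 - T) F D z0) h hx (E3.of0 (eg_sq h hx _))
    (fun c => E3.of0 (eg_exp_sq h hx _ c)) (fun z0 _ _ => sq_nonneg' x (1 - T) F D z0)
    (by positivity) (r.exp_0 hθ h hc h1 hs) (by positivity) (by linarith) p
    (by linarith)

open Classical in
/-- **(iii)** the squared gradient is rarely large at the time `s ≤ 1 - T/8` -/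
theorem Reg.up_s (h : C11 F D B L) (hc : Cv F) (h1 : 1 - T / 2 ≤ s) (hs : s ≤ 1 - T / 8)
    {M : ℝ} (hM : 17 * Λ ≤ M) :
    Et x θ η (1 - T) (1 - T / 2) s F
      (fun _ _ z2 => if M * ρ ≤ sq x s F D z2 then (1 : ℝ) else 0) ≤
        Real.exp (-(yy x η T ρ * M / 64)) := by
  have hT := r.T0
  have hx := r.x0
  have hρ := r.ρ0
  have hy := r.yy0
  have hΛ := r.Λ1
  have hη : 0 < 1 - η := by linarith [r.η1]
  have hs' : 0 < 1 - s := by linarith
  have hM0 : 0 < M := by linarith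
  refine (tail_of_exp (X := fun _ _ z2 => sq x s F D z2) (K := M * ρ) h hx
    (E3.of2 (eg_ind_ge h hx s (M * ρ))) (fun c => E3.of2 (eg_exp_sq h hx s c))
    (fun _ _ _ => by split_ifs <;> norm_num)
    (by positivity) (r.exp_s hθ h hc h1 (by linarith)) fun z0 z1 z2 hne => ?_).trans
    (Real.exp_le_exp.2 ?_)
  · by_contra hn
    rw [if_neg hn] at hne
    exact lt_irrefl _ hne
  · have h2 : (1 - η) * x ^ 2 * (M * ρ) * (T / 8) ≤ (1 - η) * x ^ 2 * (M * ρ) * (1 - s) :=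
      mul_le_mul_of_nonneg_left (by linarith) (by positivity)
    have e1 : yy x η T ρ * M / 32 ≤ (1 - η) * (x ^ 2 / 2 * (1 - s)) / 2 * (M * ρ) := by
      unfold yy
      linarith
    have e2 : yy x η T ρ * (17 * Λ) ≤ yy x η T ρ * M := mul_le_mul_of_nonneg_left hM hy.le
    linarith

open Classical in
/-- **(iii)** the time `t1` -/
theorem Reg.up_1 (h : C11 F D B L) (hc : Cv F) (h1 : 1 - T / 2 ≤ s) (hs : s ≤ 1)
    {M : ℝ} (hM : 17 * Λ ≤ M) :
    Et x θ η (1 - T) (1 - T / 2) s F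
      (fun _ z1 _ => if M * ρ ≤ sq x (1 - T / 2) F D z1 then (1 : ℝ) else 0) ≤
        Real.exp (-(yy x η T ρ * M / 64)) := by
  have hT := r.T0
  rw [Et_one1 (ψ := fun z => if M * ρ ≤ sq x (1 - T / 2) F D z then (1 : ℝ) else 0) h r.x0
    (eg_ind_ge h r.x0 _ _) h1 hs]
  exact r.up_s hθ h hc le_rfl (by linarith) hM

open Classical in
/-- **(iii)** the time `t0` -/
theorem Reg.up_0 (h : C11 F D B L) (hc : Cv F) (h1 : 1 - T / 2 ≤ s) (hs : s ≤ 1)
    {M : ℝ} (hM : 17 * Λ ≤ M) :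
    Et x θ η (1 - T) (1 - T / 2) s F
      (fun z0 _ _ => if M * ρ ≤ sq x (1 - T) F D z0 then (1 : ℝ) else 0) ≤
        Real.exp (-(yy x η T ρ * M / 64)) := by
  have hT := r.T0
  have hx := r.x0
  have hρ := r.ρ0
  have hy := r.yy0
  have hΛ := r.Λ1
  have hη : 0 < 1 - η := by linarith [r.η1]
  have hM0 : 0 < M := by linarith
  refine (tail_of_exp (X := fun z0 _ _ => sq x (1 - T) F D z0) (K := M * ρ) h hx
    (E3.of0 (eg_ind_ge h hx (1 - T) (M * ρ))) (fun c => E3.of0 (eg_exp_sq h hx (1 - T) c))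
    (fun _ _ _ => by split_ifs <;> norm_num)
    (by positivity) (r.exp_0 hθ h hc h1 hs) fun z0 z1 z2 hne => ?_).trans
    (Real.exp_le_exp.2 ?_)
  · by_contra hn
    rw [if_neg hn] at hne
    exact lt_irrefl _ hne
  · have e1 : (1 - η) * (x ^ 2 / 2 * T) / 2 * (M * ρ) = yy x η T ρ * M / 4 := by
      unfold yy
      ring
    have e2 : yy x η T ρ * (17 * Λ) ≤ yy x η T ρ * M := mul_le_mul_of_nonneg_left hM hy.le
    have e3 : 0 < yy x η T ρ * M := by positivity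
    linarith

/-- **(iv)** the mean from above -/
theorem Reg.Q_up (h : C11 F D B L) (hc : Cv F) (h1 : 1 - T / 2 ≤ s) (hs : s ≤ 1 - T / 8)
    (hy : 4 ≤ yy x η T ρ) : Qt x θ η (1 - T) (1 - T / 2) s F D ≤ 9 * Λ * ρ := by
  have h2 := r.mom_s hθ h hc h1 hs 1 (by simpa using hy)
  simp only [pow_one] at h2
  exact h2

/-- **(iv)** the mean from below -/
theorem Reg.Q_low (h : C11 F D B L) (hc : Cv F) (h1 : 1 - T / 2 ≤ s) (hs : s ≤ 1)
    (hy : 3 * Real.exp (-(θ * (x ^ 2 * ρ * T) / 16)) ≤ 1 / 2) :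
    ρ / 512 ≤ Qt x θ η (1 - T) (1 - T / 2) s F D := by
  have hx := r.x0
  have hρ := r.ρ0
  have h2 := r.low_tail hθ h hc h1 hs
  have h3 : Et x θ η (1 - T) (1 - T / 2) s F (fun _ _ z2 => ρ / 256 *
      (1 - if sq x s F D z2 ≤ ρ / 256 then (1 : ℝ) else 0)) ≤
        Et x θ η (1 - T) (1 - T / 2) s F (fun _ _ z2 => sq x s F D z2) := by
    refine Et_mono h hx (((E3.const 1).sub (e3_ind_sq2 h hx s (ρ / 256))).const_mul _)
      (E3.of2 (eg_sq h hx s)) fun z0 z1 z2 => ?_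
    split_ifs with hh
    · have := sq_nonneg' x s F D z2
      linarith
    · rw [not_le] at hh
      linarith
  rw [Et_const_mul, Et_sub h hx (E3.const 1) (e3_ind_sq2 h hx s (ρ / 256)),
    Et_const h hx] at h3
  unfold Qt
  have h4 : ρ / 256 * (1 / 2) ≤ ρ / 256 * (1 - Et x θ η (1 - T) (1 - T / 2) s F
      (fun _ _ z2 => if sq x s F D z2 ≤ ρ / 256 then (1 : ℝ) else 0)) :=
    mul_le_mul_of_nonneg_left (by linarith) (by positivity)
  linarith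

end

end Vale.Agent.P146.U.R1
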