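import Vale.Agent.P146.U.H425_R1Def
import Vale.Agent.P146.U.Ex1
import Vale.Agent.P146.H327.Sa
import Vale.Agent.P146.H640.R1t

/-!
The law `P_{θ,η}` (exponent `x` on `[t0,1]`, `(1-η) x` on `[0,t0]`, tilt `θ x (u_{t1} - u_{t0})`):
entropy inequality, transfer from `P_{0,η}`, exponential moments of the squared gradient under
`P_{0,η}` in terms of `Gx = x (PP(2x) - PP(x))`.
-/

open MeasureTheory ProbabilityTheory

namespace Vale.Agent.P146.U.R1

open Vale.Agent.P157.Lv Vale.Agent.P146.H425 Vale.Agent.P146.R1 Vale.Agent.P146.H327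

set_option linter.unusedSectionVars false

variable {κ : Type} [Fintype κ] {F : (κ → ℝ) → ℝ} {D : κ → (κ → ℝ) → ℝ}
  {B L x θ η t0 t1 s t K : ℝ} {Ψ Ψ' : (κ → ℝ) → (κ → ℝ) → (κ → ℝ) → ℝ}

/-- `E_{0,η} exp (θ x ξ) = exp L(θ)` -/
lemma Et_exp_xi (h : C11 F D B L) (hx : 0 < x) (h01 : t0 ≤ t1) (h1 : t1 ≤ s)
    (hs : s ≤ 1) (θ η : ℝ) :
    Et x 0 η t0 t1 s F (fun z0 z1 _ => Real.exp (θ * xi x t0 t1 F z0 z1)) =
      Real.exp (Lth x θ η t0 t1 F) := by
  have h2 := Et_weight (Ψ := fun _ _ _ => (1 : ℝ)) (θ := θ) (η := η) h hx h01 h1 hs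
  rw [Et_const h hx] at h2
  simp only [mul_one] at h2
  rw [Real.exp_neg, eq_comm, inv_mul_eq_one₀ (Real.exp_pos _).ne'] at h2
  exact h2.symm

/-- `E_{θ,η} exp (c x ξ) = exp (L(θ + c) - L(θ))` -/
lemma Et_exp_xi' (h : C11 F D B L) (hx : 0 < x) (h01 : t0 ≤ t1) (h1 : t1 ≤ s)
    (hs : s ≤ 1) (θ η c : ℝ) :
    Et x θ η t0 t1 s F (fun z0 z1 _ => Real.exp (c * xi x t0 t1 F z0 z1)) =
      Real.exp (Lth x (θ + c) η t0 t1 F - Lth x θ η t0 t1 F) := by
  rw [Et_weight h hx h01 h1 hs]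
  have e : (fun (z0 z1 _ : κ → ℝ) => Real.exp (θ * xi x t0 t1 F z0 z1) *
      Real.exp (c * xi x t0 t1 F z0 z1)) =
      fun z0 z1 _ => Real.exp ((θ + c) * xi x t0 t1 F z0 z1) := by
    funext z0 z1 z2
    rw [← Real.exp_add]
    ring_nf
  rw [e, Et_exp_xi h hx h01 h1 hs, ← Real.exp_add]
  ring_nf

/-- `θ L'(θ) ≤ L(2θ) - L(θ)` -/
lemma theta_xi_le (h : C11 F D B L) (hx : 0 < x) (h01 : t0 ≤ t1) (h1 : t1 ≤ s)
    (hs : s ≤ 1) (θ η : ℝ) :
    θ * Et x θ η t0 t1 s F (fun z0 z1 _ => xi x t0 t1 F z0 z1) ≤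
      Lth x (2 * θ) η t0 t1 F - Lth x θ η t0 t1 F := by
  have h2 := Et_jensen (θ := θ) (η := η) (t0 := t0) (t1 := t1) (s := s) h hx
    ((e3_xi h hx t0 t1).const_mul θ) (e3_exp_xi h hx t0 t1 θ)
  rw [Et_exp_xi' h hx h01 h1 hs, Et_const_mul, Real.exp_le_exp] at h2
  rw [two_mul]
  exact h2

/-- **The entropy inequality.** -/
theorem ent_ineq (h : C11 F D B L) (hx : 0 < x) (hΨ : E3 Ψ)
    (hΨe : E3 fun z0 z1 z2 => Real.exp (Ψ z0 z1 z2)) (h01 : t0 ≤ t1)
    (h1 : t1 ≤ s) (hs : s ≤ 1) :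
    Et x θ η t0 t1 s F Ψ ≤ Real.log (Et x 0 η t0 t1 s F (fun z0 z1 z2 => Real.exp (Ψ z0 z1 z2))) +
      (Lth x (2 * θ) η t0 t1 F - 2 * Lth x θ η t0 t1 F) := by
  have e1 : (fun z0 z1 z2 => Real.exp (Ψ z0 z1 z2 - θ * xi x t0 t1 F z0 z1)) =
      fun z0 z1 z2 => Real.exp (Ψ z0 z1 z2) * Real.exp (-θ * xi x t0 t1 F z0 z1) := by
    funext z0 z1 z2
    rw [← Real.exp_add]
    ring_nf
  have hA : E3 fun z0 z1 z2 => Real.exp (Ψ z0 z1 z2 - θ * xi x t0 t1 F z0 z1) := by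
    rw [e1]
    exact hΨe.mul (e3_exp_xi h hx t0 t1 (-θ))
  have h2 := Et_jensen (θ := θ) (η := η) (t0 := t0) (t1 := t1) (s := s) h hx
    (hΨ.sub ((e3_xi h hx t0 t1).const_mul θ)) hA
  rw [Et_sub h hx hΨ ((e3_xi h hx t0 t1).const_mul θ), Et_const_mul,
    Et_weight h hx h01 h1 hs (Ψ := fun z0 z1 z2 =>
      Real.exp (Ψ z0 z1 z2 - θ * xi x t0 t1 F z0 z1))] at h2
  have e2 : (fun z0 z1 z2 => Real.exp (θ * xi x t0 t1 F z0 z1) *
      Real.exp (Ψ z0 z1 z2 - θ * xi x t0 t1 F z0 z1)) =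
      fun z0 z1 z2 => Real.exp (Ψ z0 z1 z2) := by
    funext z0 z1 z2
    rw [← Real.exp_add]
    ring_nf
  rw [e2] at h2
  have hpos : 0 < Et x 0 η t0 t1 s F (fun z0 z1 z2 => Real.exp (Ψ z0 z1 z2)) := by
    have h3 := Et_jensen (θ := 0) (η := η) (t0 := t0) (t1 := t1) (s := s) h hx hΨ hΨe
    exact (Real.exp_pos _).trans_le h3
  have h3 := (Real.le_log_iff_exp_le (mul_pos (Real.exp_pos _) hpos)).2 h2
  rw [Real.log_mul (Real.exp_pos _).ne' hpos.ne', Real.log_exp] at h3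
  have h4 := theta_xi_le h hx h01 h1 hs θ η
  linarith

/-- Transfer from `P_{0,η}` to `P_{θ,η}`. -/
theorem transfer (h : C11 F D B L) (hx : 0 < x) (hΨ : E3 Ψ) (h01 : t0 ≤ t1)
    (h1 : t1 ≤ s) (hs : s ≤ 1) :
    Et x θ η t0 t1 s F Ψ ≤ Real.exp (Lth x (2 * θ) η t0 t1 F / 2 - Lth x θ η t0 t1 F) *
      √(Et x 0 η t0 t1 s F (fun z0 z1 z2 => Ψ z0 z1 z2 ^ 2)) := by
  rw [Et_weight h hx h01 h1 hs]
  have h2 := Et_cs (θ := 0) (η := η) (t0 := t0) (t1 := t1) (s := s) h hx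
    (e3_exp_xi h hx t0 t1 θ) hΨ
  have e : (fun (z0 z1 _ : κ → ℝ) => Real.exp (θ * xi x t0 t1 F z0 z1) ^ 2) =
      fun z0 z1 _ => Real.exp (2 * θ * xi x t0 t1 F z0 z1) := by
    funext z0 z1 z2
    rw [← Real.exp_nat_mul]
    congr 1
    push_cast
    ring
  rw [e, Et_exp_xi h hx h01 h1 hs] at h2
  have h3 := Real.sqrt_le_sqrt h2
  rw [Real.sqrt_sq_eq_abs, Real.sqrt_mul (Real.exp_pos _).le] at h3
  have h4 : √(Real.exp (Lth x (2 * θ) η t0 t1 F)) = Real.exp (Lth x (2 * θ) η t0 t1 F / 2) := by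
    rw [Real.exp_half]
  rw [h4] at h3
  have h5 : Real.exp (Lth x (2 * θ) η t0 t1 F / 2 - Lth x θ η t0 t1 F) =
      Real.exp (-(Lth x θ η t0 t1 F)) * Real.exp (Lth x (2 * θ) η t0 t1 F / 2) := by
    rw [← Real.exp_add]; ring_nf
  rw [h5, mul_assoc]
  exact mul_le_mul_of_nonneg_left ((le_abs_self _).trans h3) (Real.exp_pos _).le

lemma Et_exp_pos (h : C11 F D B L) (hx : 0 < x) (hΨ : E3 Ψ)
    (hΨe : E3 fun z0 z1 z2 => Real.exp (Ψ z0 z1 z2)) :
    0 < Et x θ η t0 t1 s F (fun z0 z1 z2 => Real.exp (Ψ z0 z1 z2)) :=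
  (Real.exp_pos _).trans_le (Et_jensen h hx hΨ hΨe)

/-! ### functions of one position -/

/-- The middle position is the last position at `s = t1`. -/
lemma Eu_one1 {ψ : (κ → ℝ) → ℝ} (h : C11 F D B L) (hx : 0 < x) (hψ : EG ψ)
    (h1 : t1 ≤ s) (hs : s ≤ 1) :
    Eu x θ η t0 t1 s F (fun _ z1 _ => ψ z1) = Eu x θ η t0 t1 t1 F (fun _ _ z2 => ψ z2) := by
  rw [Eu_fst_eq (ψ := fun _ z1 => ψ z1) h hx (E3.of1 hψ) h1 hs]
  unfold Eu
  refine integral_congr_ae (Filter.Eventually.of_forall fun w => ?_)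
  simp only
  congr 1
  unfold q2
  simp

lemma Et_one1 {ψ : (κ → ℝ) → ℝ} (h : C11 F D B L) (hx : 0 < x) (hψ : EG ψ)
    (h1 : t1 ≤ s) (hs : s ≤ 1) :
    Et x θ η t0 t1 s F (fun _ z1 _ => ψ z1) = Et x θ η t0 t1 t1 F (fun _ _ z2 => ψ z2) := by
  unfold Et
  rw [Eu_one1 h hx hψ h1 hs, Eu_one_eq h hx h1 hs]

/-- `θ = 0`, a function of the first position -/
lemma Eu_zero0 {ψ : (κ → ℝ) → ℝ} (h : C11 F D B L) (hx : 0 < x) (hψ : EG ψ)
    (h01 : t0 ≤ t1) (h1 : t1 ≤ s) (hs : s ≤ 1) :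
    Eu x 0 η t0 t1 s F (fun z0 _ _ => ψ z0) =
      ∫ y, Real.exp ((1 - η) * x * uu x t0 F (√t0 • y)) * ψ (√t0 • y) ∂(gI κ) := by
  rw [Eu_zero (ψ := fun z0 _ => ψ z0) h hx (E3.of0 hψ) h01 h1]
  refine integral_congr_ae (Filter.Eventually.of_forall fun y0 => ?_)
  simp only
  rw [integral_mul_const, uu_step h hx (h01.trans h1) hs, ← mul_assoc, ← Real.exp_add]
  congr 2
  ring

lemma Zo_eq : Zo x η t0 F = ∫ y, Real.exp ((1 - η) * x * uu x t0 F (√t0 • y)) ∂(gI κ) := by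
  unfold Zo
  refine integral_congr_ae (Filter.Eventually.of_forall fun y0 => ?_)
  simp only
  congr 1
  ring

/-- `θ = 0`, the mean of a function of the first position -/
lemma Et_zero0 {ψ : (κ → ℝ) → ℝ} (h : C11 F D B L) (hx : 0 < x) (hψ : EG ψ)
    (h01 : t0 ≤ t1) (h1 : t1 ≤ s) (hs : s ≤ 1) :
    Et x 0 η t0 t1 s F (fun z0 _ _ => ψ z0) =
      EE ((1 - η) * x) x (√t0) (√(1 - t0)) F ψ := by
  unfold Et
  rw [Eu_zero0 h hx hψ h01 h1 hs, Eu_zero_one h hx h01 h1 hs, Zo_eq]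
  unfold EE Mn uu
  simp only [zero_add]

/-- The mean squared gradient at the time `t0` under the outer law. -/
lemma Et_zero_sq (h : C11 F D B L) (hx : 0 < x) (h01 : t0 ≤ t1) (h1 : t1 ≤ s) (hs : s ≤ 1) :
    Et x 0 η t0 t1 s F (fun z0 _ _ => sq x t0 F D z0) =
      Ps ((1 - η) * x) x (√t0) (√(1 - t0)) F D :=
  Et_zero0 h hx (eg_sq h hx t0) h01 h1 hs

/-! ### exponential moments under the outer law -/

/-- `x (PP(2x) - PP(x))` -/
noncomputable def Gx (x η t0 : ℝ) (F : (κ → ℝ) → ℝ) : ℝ :=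
  x * (PP ((1 - η) * x) (2 * x) (√t0) (√(1 - t0)) F - PP ((1 - η) * x) x (√t0) (√(1 - t0)) F)

lemma exp_PP (h : C11 F D B L) (hη : η < 1) (hx : 0 < x) {b : ℝ} (hb : 0 < b) (t0 : ℝ) :
    Real.exp ((1 - η) * x * PP ((1 - η) * x) b (√t0) (√(1 - t0)) F) =
      ∫ y, Real.exp ((1 - η) * x * uu b t0 F (√t0 • y)) ∂(gI κ) := by
  have hx' : 0 < (1 - η) * x := mul_pos (by linarith) hx
  unfold PP
  rw [exp_W' (lipW h hb _) hx']
  simp only [zero_add]
  rfl

lemma Gx_nonneg (h : C11 F D B L) (hc : Cv F) (hη : η < 1) (hx : 0 < x) :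
    0 ≤ Gx x η t0 F := by
  have hx' : 0 < (1 - η) * x := mul_pos (by linarith) hx
  have h1 := PP_mono (c := √t0) (s := √(1 - t0)) h hc hx' hx (show x ≤ 2 * x by linarith)
  exact mul_nonneg hx.le (by linarith)

/-- Cauchy–Schwarz at the later time -/
lemma int_x2 (h : C11 F D B L) (hx : 0 < x) (h01 : t0 ≤ t) (h1 : t ≤ 1) (z : κ → ℝ) :
    ∫ y, Real.exp (x * uu (2 * x) t F (z + √(t - t0) • y)) ∂(gI κ) ≤
      Real.exp (x * uu (2 * x) t0 F z) := by
  have hx2 : 0 < 2 * x := by positivity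
  have eg : EG fun y : κ → ℝ => Real.exp (x * uu (2 * x) t F (z + √(t - t0) • y)) :=
    EG.add_smul ((c11_uu h hx2 t).eg_exp x) z _
  have e1 : ∫ y, Real.exp (x * uu (2 * x) t F (z + √(t - t0) • y)) ^ 2 ∂(gI κ) =
      Real.exp (x * uu (2 * x) t0 F z) ^ 2 := by
    have e2 : ∀ w : κ → ℝ, ∀ r, Real.exp (x * uu (2 * x) r F w) ^ 2 =
        Real.exp (2 * x * uu (2 * x) r F w) := by
      intro w r
      rw [← Real.exp_nat_mul]
      congr 1
      push_cast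
      ring
    simp_rw [e2]
    exact uu_step h hx2 h01 h1 z
  have h3 := cs_int (q := fun _ : κ → ℝ => (1 : ℝ)) (EG.const 1) (fun _ => zero_le_one)
    (by simp) eg
  simp only [one_mul, integral_const, probReal_univ, smul_eq_mul] at h3
  rw [e1] at h3
  have h4 : 0 ≤ ∫ y, Real.exp (x * uu (2 * x) t F (z + √(t - t0) • y)) ∂(gI κ) :=
    integral_nonneg fun z => (Real.exp_pos _).le
  have h5 : (∫ y, Real.exp (x * uu (2 * x) t F (z + √(t - t0) • y)) ∂(gI κ)) ^ 2 ≤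
      Real.exp (x * uu (2 * x) t0 F z) ^ 2 := by simpa using h3
  exact (abs_le.1 (abs_le_of_sq_le_sq h5 (Real.exp_pos _).le)).2

/-- **The conditional exponential moment at a later time.** -/
lemma inner_ut (h : C11 F D B L) (hx : 0 < x) (hη0 : 0 ≤ η) (hη : η ≤ 1)
    (h01 : t0 ≤ t) (h1 : t ≤ 1) (z : κ → ℝ) :
    ∫ y, Real.exp (x * uu x t F (z + √(t - t0) • y)) * Real.exp ((1 - η) *
      (x * (uu (2 * x) t F (z + √(t - t0) • y) - uu x t F (z + √(t - t0) • y)))) ∂(gI κ) ≤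
      Real.exp ((1 - η) * (x * (uu (2 * x) t0 F z - uu x t0 F z))) *
        Real.exp (x * uu x t0 F z) := by
  have hx2 : 0 < 2 * x := by positivity
  have l1 : Lip fun y : κ → ℝ => uu x t F (z + √(t - t0) • y) :=
    Lip.shift (lipW h hx _) z _
  have l2 : Lip fun y : κ → ℝ => uu (2 * x) t F (z + √(t - t0) • y) :=
    Lip.shift (lipW h hx2 _) z _
  have i0 : ∀ c : ℝ, EG fun y : κ → ℝ => Real.exp (x * uu x t F (z + √(t - t0) • y)) *
      Real.exp (c * (x * (uu (2 * x) t F (z + √(t - t0) • y) -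
        uu x t F (z + √(t - t0) • y)))) := by
    intro c
    have h3 := (l1.exp_eg x).mul (((l2.add (l1.const_mul (-1))).const_mul x).exp_eg c)
    have e : (fun y : κ → ℝ => Real.exp (x * uu x t F (z + √(t - t0) • y)) *
      Real.exp (c * (x * (uu (2 * x) t F (z + √(t - t0) • y) -
        uu x t F (z + √(t - t0) • y))))) = fun y => Real.exp (x * uu x t F (z + √(t - t0) • y)) *
      Real.exp (c * (x * (uu (2 * x) t F (z + √(t - t0) • y) +
        -1 * uu x t F (z + √(t - t0) • y)))) := by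
      funext y
      congr 2
      ring
    rw [e]
    exact h3
  have hb := hold (q := fun y => Real.exp (x * uu x t F (z + √(t - t0) • y)))
    (g := fun y => x * (uu (2 * x) t F (z + √(t - t0) • y) - uu x t F (z + √(t - t0) • y)))
    (θ := 1 - η) (γ := x * (uu (2 * x) t0 F z - uu x t0 F z)) (l1.exp_eg x).integrable
    (fun y => (Real.exp_pos _).le) (by simpa using (i0 1).integrable) (i0 _).integrable
    (by linarith) (by linarith) ?_
  · rw [uu_step h hx h01 h1 z] at hb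
    exact hb
  · rw [uu_step h hx h01 h1 z, ← Real.exp_add]
    have e : (fun y : κ → ℝ => Real.exp (x * uu x t F (z + √(t - t0) • y)) *
        Real.exp (x * (uu (2 * x) t F (z + √(t - t0) • y) - uu x t F (z + √(t - t0) • y)))) =
        fun y => Real.exp (x * uu (2 * x) t F (z + √(t - t0) • y)) := by
      funext y
      rw [← Real.exp_add]
      congr 1
      ring
    rw [e]
    refine (int_x2 h hx h01 h1 z).trans (le_of_eq ?_)
    congr 1
    ring

/-- The exponential moment of the gain at the first position. -/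
lemma Et_gain0 (h : C11 F D B L) (hx : 0 < x) (hη : η < 1)
    (h01 : t0 ≤ t1) (h1 : t1 ≤ s) (hs : s ≤ 1) :
    Et x 0 η t0 t1 s F (fun z0 _ _ => Real.exp ((1 - η) *
      (x * (uu (2 * x) t0 F z0 - uu x t0 F z0)))) = Real.exp ((1 - η) * Gx x η t0 F) := by
  have hx2 : 0 < 2 * x := by positivity
  have l1 : Lip (uu x t0 F) := lipW h hx _
  have l2 : Lip (uu (2 * x) t0 F) := lipW h hx2 _
  have i0 : EG fun z : κ → ℝ => Real.exp ((1 - η) *
      (x * (uu (2 * x) t0 F z - uu x t0 F z))) := by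
    have h3 := ((l2.add (l1.const_mul (-1))).const_mul x).exp_eg (1 - η)
    have e : (fun z : κ → ℝ => Real.exp ((1 - η) *
      (x * (uu (2 * x) t0 F z - uu x t0 F z)))) = fun z => Real.exp ((1 - η) *
      (x * (uu (2 * x) t0 F z + -1 * uu x t0 F z))) := by
      funext z
      congr 2
      ring
    rw [e]
    exact h3
  unfold Et
  rw [Eu_zero0 h hx i0 h01 h1 hs, Eu_zero_one h hx h01 h1 hs, Zo_eq, ← exp_PP h hη hx hx]
  have e : (fun y : κ → ℝ => Real.exp ((1 - η) * x * uu x t0 F (√t0 • y)) *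
      Real.exp ((1 - η) * (x * (uu (2 * x) t0 F (√t0 • y) - uu x t0 F (√t0 • y))))) =
      fun y => Real.exp ((1 - η) * x * uu (2 * x) t0 F (√t0 • y)) := by
    funext y
    rw [← Real.exp_add]
    congr 1
    ring
  rw [e, ← exp_PP h hη hx hx2, ← Real.exp_sub]
  congr 1
  unfold Gx
  ring

/-- **The exponential moment of the squared gradient at the first position.** -/
theorem ut0 (h : C11 F D B L) (hc : Cv F) (hx : 0 < x) (hη : η < 1)
    (h01 : t0 ≤ t1) (h1 : t1 ≤ s) (hs : s ≤ 1) :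
    Et x 0 η t0 t1 s F (fun z0 _ _ =>
      Real.exp ((1 - η) * (x ^ 2 / 2 * (1 - t0)) * sq x t0 F D z0)) ≤
        Real.exp ((1 - η) * Gx x η t0 F) := by
  have hx2 : 0 < 2 * x := by positivity
  have l1 : Lip (uu x t0 F) := lipW h hx _
  have l2 : Lip (uu (2 * x) t0 F) := lipW h hx2 _
  rw [← Et_gain0 h hx hη h01 h1 hs]
  refine Et_mono h hx (E3.of0 (eg_exp_sq h hx t0 _)) (E3.of0 (ψ := fun z0 => Real.exp ((1 - η) *
      (x * (uu (2 * x) t0 F z0 - uu x t0 F z0)))) ?_) fun z0 _ _ => ?_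
  · have h3 := ((l2.add (l1.const_mul (-1))).const_mul x).exp_eg (1 - η)
    have e : (fun z : κ → ℝ => Real.exp ((1 - η) *
      (x * (uu (2 * x) t0 F z - uu x t0 F z)))) = fun z => Real.exp ((1 - η) *
      (x * (uu (2 * x) t0 F z + -1 * uu x t0 F z))) := by
      funext z
      congr 2
      ring
    rw [e]
    exact h3
  · refine Real.exp_le_exp.2 ?_
    rw [mul_assoc]
    refine mul_le_mul_of_nonneg_left ?_ (by linarith)
    have h5 := mul_le_mul_of_nonneg_left (W_two_ge (b := √(1 - t0)) h hc hx z0) hx.le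
    rw [Real.sq_sqrt (by linarith)] at h5
    unfold uu R1.sq
    refine le_trans (le_of_eq ?_) (sub_le_sub_right h5 (x * W x (√(1 - t0)) F z0)) |>.trans
      (le_of_eq ?_)
    · ring
    · ring

/-- **The exponential moment of the squared gradient at a later position.** -/
theorem ut2 (h : C11 F D B L) (hc : Cv F) (hx : 0 < x) (hη0 : 0 ≤ η) (hη : η < 1)
    (h01 : t0 ≤ t1) (h1 : t1 ≤ s) (hs : s ≤ 1) :
    Et x 0 η t0 t1 s F (fun _ _ z2 =>
      Real.exp ((1 - η) * (x ^ 2 / 2 * (1 - s)) * sq x s F D z2)) ≤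
        Real.exp ((1 - η) * Gx x η t0 F) := by
  have hx2 : 0 < 2 * x := by positivity
  have l1 : ∀ t, Lip (uu x t F) := fun t => lipW h hx _
  have l2 : ∀ t, Lip (uu (2 * x) t F) := fun t => lipW h hx2 _
  have ig : ∀ t, EG fun z : κ → ℝ => Real.exp ((1 - η) *
      (x * (uu (2 * x) t F z - uu x t F z))) := by
    intro t
    have h3 := (((l2 t).add ((l1 t).const_mul (-1))).const_mul x).exp_eg (1 - η)
    have e : (fun z : κ → ℝ => Real.exp ((1 - η) *
      (x * (uu (2 * x) t F z - uu x t F z)))) = fun z => Real.exp ((1 - η) *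
      (x * (uu (2 * x) t F z + -1 * uu x t F z))) := by
      funext z
      congr 2
      ring
    rw [e]
    exact h3
  have k1 : Et x 0 η t0 t1 s F (fun _ _ z2 =>
      Real.exp ((1 - η) * (x ^ 2 / 2 * (1 - s)) * sq x s F D z2)) ≤
      Et x 0 η t0 t1 s F (fun _ _ z2 => Real.exp ((1 - η) *
        (x * (uu (2 * x) s F z2 - uu x s F z2)))) := by
    refine Et_mono h hx (E3.of2 (eg_exp_sq h hx s _)) (E3.of2 (ig s)) fun _ _ z0 => ?_
    refine Real.exp_le_exp.2 ?_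
    rw [mul_assoc]
    refine mul_le_mul_of_nonneg_left ?_ (by linarith)
    have h5 := mul_le_mul_of_nonneg_left (W_two_ge (b := √(1 - s)) h hc hx z0) hx.le
    rw [Real.sq_sqrt (by linarith)] at h5
    unfold uu R1.sq
    refine le_trans (le_of_eq ?_) (sub_le_sub_right h5 (x * W x (√(1 - s)) F z0)) |>.trans
      (le_of_eq ?_)
    · ring
    · ring
  refine k1.trans ?_
  rw [← Et_gain0 h hx hη h01 h1 hs]
  unfold Et
  refine div_le_div_of_nonneg_right ?_ (Eu_one_pos h hx).le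
  rw [Eu_zero (ψ := fun _ z2 => Real.exp ((1 - η) *
        (x * (uu (2 * x) s F z2 - uu x s F z2)))) h hx (E3.of2 (ig s)) h01 h1,
    Eu_zero0 h hx (ig t0) h01 h1 hs]
  refine integral_mono_of_nonneg (Filter.Eventually.of_forall fun y =>
      mul_nonneg (Real.exp_pos _).le (integral_nonneg fun z =>
        mul_nonneg (Real.exp_pos _).le (Real.exp_pos _).le)) ?_
      (Filter.Eventually.of_forall fun y => ?_)
  · exact (EG.smul' (((l1 t0).exp_eg ((1 - η) * x)).mul (ig t0)) _).integrable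
  · simp only
    have h5 := inner_ut h hx hη0 hη.le (h01.trans h1) hs (√t0 • y)
    refine (mul_le_mul_of_nonneg_left h5 (Real.exp_pos _).le).trans (le_of_eq ?_)
    rw [← Real.exp_add, ← Real.exp_add, ← Real.exp_add]
    congr 1
    ring

end Vale.Agent.P146.U.R1
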