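import Vale.Agent.P146.U.H622.F1a

/-!
The tilt of the value function for the law with an outer exponent: `L(θ) ≤ 2 θ Gx`,
`L(θ) ≥ θ (x²/2) (t1 - t0) ρ`, and under `P_{θ,η}` the variable `x ξ` is at least half of a lower
bound of its `P_{0,η}`-mean up to an exponentially small probability. Moments and tails of the
squared gradient under `P_{θ,η}` from exponential moments under `P_{0,η}`.
-/

open MeasureTheory ProbabilityTheory

namespace Vale.Agent.P146.U.R1

open Vale.Agent.P157.Lv Vale.Agent.P146.H425 Vale.Agent.P146.R1 Vale.Agent.P146.H327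

set_option linter.unusedSectionVars false

variable {κ : Type} [Fintype κ] {F : (κ → ℝ) → ℝ} {D : κ → (κ → ℝ) → ℝ}
  {B L x θ η t0 t1 s t m K : ℝ} {Ψ Ψ' : (κ → ℝ) → (κ → ℝ) → (κ → ℝ) → ℝ}

/-! ### the bounds on `L` -/

/-- **Upper bound of `L`.** -/
theorem Lth_le (h : C11 F D B L) (hc : Cv F) (hx : 0 < x) (hη0 : 0 ≤ η) (hη : η < 1)
    (h01 : t0 ≤ t1) (h1 : t1 ≤ 1) (hθ : 0 ≤ θ) (hθ1 : 2 * θ ≤ 1 - η) :
    Lth x θ η t0 t1 F ≤ 2 * θ * Gx x η t0 F := by
  have hx2 : 0 < 2 * x := by positivity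
  have hη1 : 0 < 1 - η := by linarith
  have e1 := Eu_fst (θ := θ) (η := η) (t0 := t0) (s := t1) (ψ := fun _ _ => (1 : ℝ)) h hx
    (E3.const 1) le_rfl h1
  simp only [mul_one] at e1
  have l1 : Lip fun y : κ → ℝ => uu x t0 F (√t0 • y) := by
    have := (c11_uu h hx t0).lip.lip_smul h.B0 0 (√t0)
    simpa using this
  have l2 : Lip fun y : κ → ℝ => uu (2 * x) t0 F (√t0 • y) := by
    have := (c11_uu h hx2 t0).lip.lip_smul h.B0 0 (√t0)
    simpa using this
  have i2 : ∀ c : ℝ, EG fun y : κ → ℝ => Real.exp ((1 - η) * x * uu x t0 F (√t0 • y)) *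
      Real.exp (c * (x * (uu (2 * x) t0 F (√t0 • y) - uu x t0 F (√t0 • y)))) := by
    intro c
    have h3 := (l1.exp_eg ((1 - η) * x)).mul
      (((l2.add (l1.const_mul (-1))).const_mul x).exp_eg c)
    have e : (fun y : κ → ℝ => Real.exp ((1 - η) * x * uu x t0 F (√t0 • y)) *
        Real.exp (c * (x * (uu (2 * x) t0 F (√t0 • y) - uu x t0 F (√t0 • y))))) =
        fun y => Real.exp ((1 - η) * x * uu x t0 F (√t0 • y)) *
        Real.exp (c * (x * (uu (2 * x) t0 F (√t0 • y) + -1 * uu x t0 F (√t0 • y)))) := by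
      funext y
      congr 2
      ring
    rw [e]
    exact h3
  have a1 : Eu x θ η t0 t1 t1 F (fun _ _ _ => 1) ≤ ∫ y0,
      Real.exp ((1 - η) * x * uu x t0 F (√t0 • y0)) *
        Real.exp (2 * θ * (x * (uu (2 * x) t0 F (√t0 • y0) - uu x t0 F (√t0 • y0)))) ∂(gI κ) := by
    rw [e1]
    refine integral_mono_of_nonneg (Filter.Eventually.of_forall fun y =>
      integral_nonneg fun z => (Real.exp_pos _).le) (i2 (2 * θ)).integrable
      (Filter.Eventually.of_forall fun y => ?_)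
    simp only
    have h3 := inner_le h hc hx h01 h1 hθ (by linarith) (√t0 • y)
    have e3 : ∫ y1, Real.exp (x * uu x t1 F (√t0 • y + √(t1 - t0) • y1) +
        θ * xi x t0 t1 F (√t0 • y) (√t0 • y + √(t1 - t0) • y1) -
        η * (x * uu x t0 F (√t0 • y))) ∂(gI κ) = Real.exp (-(η * (x * uu x t0 F (√t0 • y)))) *
        ∫ y1, Real.exp (x * uu x t1 F (√t0 • y + √(t1 - t0) • y1) +
        θ * xi x t0 t1 F (√t0 • y) (√t0 • y + √(t1 - t0) • y1)) ∂(gI κ) := by
      rw [← integral_const_mul]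
      refine integral_congr_ae (Filter.Eventually.of_forall fun y1 => ?_)
      simp only
      rw [← Real.exp_add]
      congr 1
      ring
    rw [e3]
    refine (mul_le_mul_of_nonneg_left h3 (Real.exp_pos _).le).trans (le_of_eq ?_)
    rw [← Real.exp_add, ← Real.exp_add, ← Real.exp_add]
    congr 1
    ring
  have hZ : ∫ y, Real.exp ((1 - η) * x * uu x t0 F (√t0 • y)) ∂(gI κ) = Zo x η t0 F :=
    Zo_eq.symm
  have i3 : ∀ c : ℝ, Integrable (fun y : κ → ℝ => Real.exp ((1 - η) * x * uu x t0 F (√t0 • y)) *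
      Real.exp (c * ((1 - η) * (x * (uu (2 * x) t0 F (√t0 • y) - uu x t0 F (√t0 • y))))))
      (gI κ) := by
    intro c
    have := (i2 (c * (1 - η))).integrable
    simpa only [mul_assoc] using this
  have a2 := hold (q := fun y => Real.exp ((1 - η) * x * uu x t0 F (√t0 • y)))
    (g := fun y => (1 - η) * (x * (uu (2 * x) t0 F (√t0 • y) - uu x t0 F (√t0 • y))))
    (θ := 2 * θ / (1 - η)) (γ := (1 - η) * Gx x η t0 F)
    (l1.exp_eg ((1 - η) * x)).integrable (fun y => (Real.exp_pos _).le)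
    (by simpa using i3 1) (i3 _)
    (by positivity) (by rw [div_le_one hη1]; linarith) ?_
  · have e2 : ∀ r : ℝ, 2 * θ / (1 - η) * ((1 - η) * r) = 2 * θ * r := by
      intro r
      field_simp
    simp only [e2] at a2
    rw [hZ] at a2
    have a3 := Real.log_le_log (Eu_one_pos h hx) (a1.trans a2)
    have hZ0 := Zo_pos (η := η) h hx (h01.trans h1)
    rw [Real.log_mul (Real.exp_pos _).ne' hZ0.ne', Real.log_exp] at a3
    unfold Lth
    linarith
  · rw [hZ]
    have h4 := Et_gain0 (t1 := t1) (s := t1) h hx hη h01 le_rfl h1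
    unfold Et at h4
    rw [Eu_zero_one h hx h01 le_rfl h1, div_eq_iff (Zo_pos h hx (h01.trans h1)).ne'] at h4
    rw [← h4, Eu_zero0 (ψ := fun z0 => Real.exp ((1 - η) *
      (x * (uu (2 * x) t0 F z0 - uu x t0 F z0)))) h hx ?_ h01 le_rfl h1]
    have h3 := (((lipW h hx2 (√(1 - t0))).add ((lipW h hx (√(1 - t0))).const_mul
      (-1))).const_mul x).exp_eg (1 - η)
    have e : (fun z : κ → ℝ => Real.exp ((1 - η) *
      (x * (uu (2 * x) t0 F z - uu x t0 F z)))) = fun z => Real.exp ((1 - η) *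
      (x * (W (2 * x) (√(1 - t0)) F z + -1 * W x (√(1 - t0)) F z))) := by
      funext z
      congr 2
      unfold uu
      ring
    rw [e]
    exact h3

/-- **The mean of `x ξ` under `P_{0,η}`.** -/
theorem Ex_xi_ge (h : C11 F D B L) (hx : 0 < x) (h01 : t0 ≤ t1) (h1 : t1 ≤ s)
    (hs : s ≤ 1) : x ^ 2 / 2 * (t1 - t0) * Ps ((1 - η) * x) x (√t0) (√(1 - t0)) F D ≤
      Et x 0 η t0 t1 s F (fun z0 z1 _ => xi x t0 t1 F z0 z1) := by
  have h1' : t1 ≤ 1 := h1.trans hs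
  have hU := c11_uu h hx t1
  have hU0 := c11_uu h hx t0
  rw [← Et_zero_sq (t1 := t1) (s := s) h hx h01 h1 hs, ← Et_const_mul]
  unfold Et
  refine div_le_div_of_nonneg_right ?_ (Eu_one_pos h hx).le
  rw [Eu_zero0 (ψ := fun z0 => x ^ 2 / 2 * (t1 - t0) * sq x t0 F D z0) h hx
    ((eg_sq h hx t0).const_mul _) h01 h1 hs, Eu_fst h hx (e3_xi h hx t0 t1) h1 hs]
  -- the inner integral as a function of the position
  set I : (κ → ℝ) → ℝ := fun z => ∫ y, Real.exp (x * uu x t1 F (z + √(t1 - t0) • y)) *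
        xi x t0 t1 F z (z + √(t1 - t0) • y) ∂(gI κ) with hI
  have hIe : EG I := by
    have e1 : I = fun z => x * (∫ y, Real.exp (x * uu x t1 F (z + √(t1 - t0) • y)) *
        uu x t1 F (z + √(t1 - t0) • y) ∂(gI κ)) - x * (uu x t0 F z *
        Real.exp (x * uu x t0 F z)) := by
      funext z
      have i1 : Integrable (fun y => Real.exp (x * uu x t1 F (z + √(t1 - t0) • y)) *
          uu x t1 F (z + √(t1 - t0) • y)) (gI κ) :=
        (EG.add_smul ((hU.eg_exp x).mul hU.eg) z _).integrable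
      have i2 := (eg_inner (t1 := t1) h hx x z (√(t1 - t0))).integrable
      rw [hI]
      simp only
      rw [← uu_step h hx h01 h1' z, ← integral_const_mul, ← integral_const_mul,
        ← integral_const_mul, ← integral_sub (i1.const_mul _) ((i2.const_mul _).const_mul _)]
      refine integral_congr_ae (Filter.Eventually.of_forall fun y => ?_)
      simp only [xi]
      ring
    rw [e1]
    exact ((EG.conv ((hU.eg_exp x).mul hU.eg) _).const_mul x).sub
      ((hU0.eg.mul (hU0.eg_exp x)).const_mul x)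
  have hJe : EG fun z => Real.exp (-(η * x) * uu x t0 F z) * I z :=
    (hU0.eg_exp (-(η * x))).mul hIe
  have e5 : ∀ y0 : κ → ℝ, (∫ y1, Real.exp (x * uu x t1 F (√t0 • y0 + √(t1 - t0) • y1) +
        0 * xi x t0 t1 F (√t0 • y0) (√t0 • y0 + √(t1 - t0) • y1) -
        η * (x * uu x t0 F (√t0 • y0))) *
      xi x t0 t1 F (√t0 • y0) (√t0 • y0 + √(t1 - t0) • y1) ∂(gI κ)) =
      Real.exp (-(η * x) * uu x t0 F (√t0 • y0)) * I (√t0 • y0) := by
    intro y0
    rw [hI]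
    simp only
    rw [← integral_const_mul]
    refine integral_congr_ae (Filter.Eventually.of_forall fun y1 => ?_)
    simp only
    rw [← mul_assoc (Real.exp (-(η * x) * uu x t0 F (√t0 • y0))), ← Real.exp_add]
    congr 2
    ring
  simp_rw [e5]
  refine integral_mono (EG.smul' ((hU0.eg_exp ((1 - η) * x)).mul ((eg_sq h hx t0).const_mul
    (x ^ 2 / 2 * (t1 - t0)))) (√t0)).integrable (EG.smul' hJe (√t0)).integrable fun y => ?_
  simp only
  have h6 := mul_le_mul_of_nonneg_left (inner_xi h hx h01 h1' (√t0 • y) (D := D))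
    (Real.exp_pos (-(η * x) * uu x t0 F (√t0 • y))).le
  refine le_trans (le_of_eq ?_) h6
  rw [← mul_assoc (Real.exp (-(η * x) * uu x t0 F (√t0 • y))), ← Real.exp_add]
  have e7 : -(η * x) * uu x t0 F (√t0 • y) + x * uu x t0 F (√t0 • y) =
      (1 - η) * x * uu x t0 F (√t0 • y) := by ring
  rw [e7]
  ring

theorem Lth_ge (h : C11 F D B L) (hx : 0 < x) (h01 : t0 ≤ t1)
    (h1 : t1 ≤ 1) (hθ : 0 ≤ θ) :
    θ * (x ^ 2 / 2 * (t1 - t0) * Ps ((1 - η) * x) x (√t0) (√(1 - t0)) F D) ≤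
      Lth x θ η t0 t1 F := by
  have h2 := Et_jensen (θ := 0) (η := η) (t0 := t0) (t1 := t1) (s := t1) h hx
    ((e3_xi h hx t0 t1).const_mul θ) (e3_exp_xi h hx t0 t1 θ)
  rw [Et_exp_xi h hx h01 le_rfl h1, Et_const_mul, Real.exp_le_exp] at h2
  exact (mul_le_mul_of_nonneg_left (Ex_xi_ge h hx h01 le_rfl h1) hθ).trans h2

theorem Lth_nonneg (h : C11 F D B L) (hx : 0 < x) (h01 : t0 ≤ t1)
    (h1 : t1 ≤ 1) (hθ : 0 ≤ θ) : 0 ≤ Lth x θ η t0 t1 F := by
  refine le_trans ?_ (Lth_ge (D := D) h hx h01 h1 hθ)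
  have := Ps_nonneg (x := (1 - η) * x) (c := √t0) (s := √(1 - t0)) h hx
  have : 0 ≤ t1 - t0 := by linarith
  positivity

lemma Lth_half (h : C11 F D B L) (hx : 0 < x) (h01 : t0 ≤ t1)
    (h1 : t1 ≤ 1) : 2 * Lth x (θ / 2) η t0 t1 F ≤ Lth x θ η t0 t1 F := by
  have h2 := Et_cs (θ := 0) (η := η) (t0 := t0) (t1 := t1) (s := t1) h hx
    (e3_exp_xi h hx t0 t1 (θ / 2)) (E3.const 1)
  simp only [mul_one, one_pow] at h2
  rw [Et_const h hx, mul_one, Et_exp_xi h hx h01 le_rfl h1] at h2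
  have e : (fun (z0 z1 _ : κ → ℝ) => Real.exp (θ / 2 * xi x t0 t1 F z0 z1) ^ 2) =
      fun z0 z1 _ => Real.exp (θ * xi x t0 t1 F z0 z1) := by
    funext z0 z1 _
    rw [← Real.exp_nat_mul]
    congr 1
    push_cast
    ring
  rw [e, Et_exp_xi h hx h01 le_rfl h1, ← Real.exp_nat_mul, Real.exp_le_exp] at h2
  push_cast at h2
  exact h2

/-- Under `P_{θ,η}` the variable `x ξ` is at least half of a lower bound of its
`P_{0,η}`-mean, up to an exponentially small probability. -/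
theorem Et_xi_low (h : C11 F D B L) (hx : 0 < x) (h01 : t0 ≤ t1)
    (h1 : t1 ≤ s) (hs : s ≤ 1) (hθ : 0 ≤ θ)
    (hm : m ≤ x ^ 2 / 2 * (t1 - t0) * Ps ((1 - η) * x) x (√t0) (√(1 - t0)) F D)
    (hΨ : E3 Ψ) (hΨ1 : ∀ z0 z1 z2, Ψ z0 z1 z2 ≤ 1)
    (hev : ∀ z0 z1 z2, Ψ z0 z1 z2 ≠ 0 → xi x t0 t1 F z0 z1 ≤ m / 2) :
    Et x θ η t0 t1 s F Ψ ≤ Real.exp (-(θ * m / 4)) := by
  rw [Et_weight h hx h01 h1 hs]
  have h2 : Et x 0 η t0 t1 s F (fun z0 z1 z2 => Real.exp (θ * xi x t0 t1 F z0 z1) * Ψ z0 z1 z2) ≤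
      Et x 0 η t0 t1 s F (fun z0 z1 _ => Real.exp (θ * m / 4) *
        Real.exp (θ / 2 * xi x t0 t1 F z0 z1)) := by
    refine Et_mono h hx ((e3_exp_xi h hx t0 t1 θ).mul hΨ)
      ((e3_exp_xi h hx t0 t1 (θ / 2)).const_mul _) fun z0 z1 z2 => ?_
    by_cases hz : Ψ z0 z1 z2 = 0
    · rw [hz, mul_zero]; positivity
    · have h3 := hev z0 z1 z2 hz
      calc Real.exp (θ * xi x t0 t1 F z0 z1) * Ψ z0 z1 z2 ≤
            Real.exp (θ * xi x t0 t1 F z0 z1) * 1 :=
            mul_le_mul_of_nonneg_left (hΨ1 _ _ _) (Real.exp_pos _).le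
        _ ≤ Real.exp (θ * m / 4) * Real.exp (θ / 2 * xi x t0 t1 F z0 z1) := by
            rw [mul_one, ← Real.exp_add, Real.exp_le_exp]
            nlinarith
  rw [Et_const_mul, Et_exp_xi h hx h01 h1 hs] at h2
  have h3 := mul_le_mul_of_nonneg_left h2 (Real.exp_pos (-(Lth x θ η t0 t1 F))).le
  refine h3.trans ?_
  rw [← Real.exp_add, ← Real.exp_add, Real.exp_le_exp]
  have h4 := Lth_half (θ := θ) (η := η) h hx h01 (h1.trans hs)
  have h5 := Lth_ge (θ := θ / 2) (η := η) (D := D) h hx h01 (h1.trans hs) (by positivity)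
  have h6 := mul_le_mul_of_nonneg_left hm (by positivity : 0 ≤ θ / 2)
  linarith

open Classical in
theorem tilt (h : C11 F D B L) (hx : 0 < x) (h01 : t0 ≤ t1)
    (h1 : t1 ≤ s) (hs : s ≤ 1) (hθ : 0 ≤ θ)
    (hm : m ≤ x ^ 2 / 2 * (t1 - t0) * Ps ((1 - η) * x) x (√t0) (√(1 - t0)) F D) :
    Et x θ η t0 t1 s F (fun z0 z1 _ => if xi x t0 t1 F z0 z1 < m / 2 then (1 : ℝ) else 0) ≤
      Real.exp (-(θ * m / 4)) := by
  refine Et_xi_low h hx h01 h1 hs hθ hm (e3_ind_xi h hx t0 t1 (m / 2))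
    (fun z0 z1 z2 => ?_) fun z0 z1 z2 hne => ?_
  · split_ifs <;> norm_num
  · by_contra hh
    push Not at hh
    exact hne (if_neg (not_lt.2 hh.le))

/-! ### moments and tails from exponential moments -/

section gen

variable {X : (κ → ℝ) → (κ → ℝ) → (κ → ℝ) → ℝ} {a b l : ℝ}

/-- the exponential moment under `P_{θ,η}` -/
lemma exp_tilt (h : C11 F D B L) (hx : 0 < x) (h01 : t0 ≤ t1) (h1 : t1 ≤ s) (hs : s ≤ 1)
    (hXe : ∀ c : ℝ, E3 fun z0 z1 z2 => Real.exp (c * X z0 z1 z2))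
    (hE : Et x 0 η t0 t1 s F (fun z0 z1 z2 => Real.exp (a * X z0 z1 z2)) ≤ Real.exp b)
    (hL : 0 ≤ Lth x θ η t0 t1 F) (hl : Lth x (2 * θ) η t0 t1 F ≤ l) :
    Et x θ η t0 t1 s F (fun z0 z1 z2 => Real.exp (a / 2 * X z0 z1 z2)) ≤
      Real.exp ((b + l) / 2) := by
  refine (transfer h hx (hXe _) h01 h1 hs).trans ?_
  have e : (fun z0 z1 z2 => Real.exp (a / 2 * X z0 z1 z2) ^ 2) =
      fun z0 z1 z2 => Real.exp (a * X z0 z1 z2) := by
    funext z0 z1 z2
    rw [← Real.exp_nat_mul]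
    congr 1
    push_cast
    ring
  rw [e]
  calc Real.exp (Lth x (2 * θ) η t0 t1 F / 2 - Lth x θ η t0 t1 F) *
      √(Et x 0 η t0 t1 s F (fun z0 z1 z2 => Real.exp (a * X z0 z1 z2)))
      ≤ Real.exp (l / 2) * √(Real.exp b) := by
        refine mul_le_mul (Real.exp_le_exp.2 (by linarith)) (Real.sqrt_le_sqrt hE)
          (Real.sqrt_nonneg _) (Real.exp_pos _).le
    _ = _ := by
        rw [← Real.exp_half, ← Real.exp_add]
        congr 1
        ring

/-- **All the moments from one exponential moment.** -/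
lemma mom_of_exp (h : C11 F D B L) (hx : 0 < x) (hX : E3 X)
    (hXe : ∀ c : ℝ, E3 fun z0 z1 z2 => Real.exp (c * X z0 z1 z2))
    (hX0 : ∀ z0 z1 z2, 0 ≤ X z0 z1 z2) (ha : 0 < a) {c : ℝ}
    (hE : Et x θ η t0 t1 s F (fun z0 z1 z2 => Real.exp (a * X z0 z1 z2)) ≤ Real.exp c)
    (hK : 0 < K) (hK1 : c ≤ a * K) (p : ℕ) (hK2 : (p : ℝ) ≤ a * K) :
    Et x θ η t0 t1 s F (fun z0 z1 z2 => X z0 z1 z2 ^ p) ≤ K ^ p := by
  set τ := (p : ℝ) / (a * K) with hτ
  have haK : 0 < a * K := mul_pos ha hK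
  have hτ0 : 0 ≤ τ := by positivity
  have hτ1 : τ ≤ 1 := by rw [hτ, div_le_one haK]; exact hK2
  have hpt : ∀ z0 z1 z2, X z0 z1 z2 ^ p ≤ K ^ p * (1 - τ) + (K ^ p * τ * Real.exp (-c)) *
      Real.exp (a * X z0 z1 z2) := by
    intro z0 z1 z2
    set u := X z0 z1 z2 with hu
    have hu0 : 0 ≤ u := hX0 _ _ _
    have h2 : u ^ p ≤ K ^ p * Real.exp (p * (u / K - 1)) := by
      have h3 : u / K ≤ Real.exp (u / K - 1) := by
        have := Real.add_one_le_exp (u / K - 1)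
        linarith
      have h4 : (u / K) ^ p ≤ Real.exp (u / K - 1) ^ p := pow_le_pow_left₀ (by positivity) h3 p
      rw [← Real.exp_nat_mul, div_pow, div_le_iff₀ (by positivity)] at h4
      linarith
    have h3 := convexOn_exp.2 (Set.mem_univ (a * u - c)) (Set.mem_univ (0 : ℝ)) hτ0
      (by linarith : 0 ≤ 1 - τ) (by ring)
    simp only [smul_eq_mul, mul_zero, add_zero, Real.exp_zero, mul_one] at h3
    have h4 : (p : ℝ) * (u / K - 1) ≤ τ * (a * u - c) := by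
      have e1 : τ * (a * u) = p * (u / K) := by
        rw [hτ]
        field_simp
      have e2 : τ * c ≤ p := by
        rw [hτ, div_mul_eq_mul_div, div_le_iff₀ haK]
        exact mul_le_mul_of_nonneg_left hK1 (Nat.cast_nonneg p)
      have e3 : τ * (a * u - c) = p * (u / K) - τ * c := by rw [mul_sub, e1]
      rw [e3]
      linarith
    have h5 := (Real.exp_le_exp.2 h4).trans h3
    have e3 : Real.exp (a * u - c) = Real.exp (-c) * Real.exp (a * u) := by
      rw [← Real.exp_add]; congr 1; ring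
    rw [e3] at h5
    have h6 := mul_le_mul_of_nonneg_left h5 (by positivity : 0 ≤ K ^ p)
    refine h2.trans (h6.trans (le_of_eq ?_))
    ring
  have h2 := Et_mono (θ := θ) (η := η) (t0 := t0) (t1 := t1) (s := s) h hx (hX.pow p)
    ((E3.const (K ^ p * (1 - τ))).add ((hXe a).const_mul (K ^ p * τ * Real.exp (-c)))) hpt
  rw [Et_add h hx (E3.const _) ((hXe a).const_mul _), Et_const h hx, Et_const_mul] at h2
  have h3 := mul_le_mul_of_nonneg_left hE (by positivity : 0 ≤ K ^ p * τ * Real.exp (-c))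
  have e4 : K ^ p * τ * Real.exp (-c) * Real.exp c = K ^ p * τ := by
    rw [mul_assoc, ← Real.exp_add, neg_add_cancel, Real.exp_zero, mul_one]
  rw [e4] at h3
  linarith

/-- exponential tail from the exponential moment -/
lemma tail_of_exp (h : C11 F D B L) (hx : 0 < x)
    {χ : (κ → ℝ) → (κ → ℝ) → (κ → ℝ) → ℝ} (hχ : E3 χ)
    (hXe : ∀ c : ℝ, E3 fun z0 z1 z2 => Real.exp (c * X z0 z1 z2))
    (c1 : ∀ z0 z1 z2, χ z0 z1 z2 ≤ 1) (ha : 0 ≤ a) {c : ℝ}
    (hE : Et x θ η t0 t1 s F (fun z0 z1 z2 => Real.exp (a * X z0 z1 z2)) ≤ Real.exp c)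
    (hK : ∀ z0 z1 z2, 0 < χ z0 z1 z2 → K ≤ X z0 z1 z2) :
    Et x θ η t0 t1 s F χ ≤ Real.exp (c - a * K) := by
  have h2 : Et x θ η t0 t1 s F χ ≤ Et x θ η t0 t1 s F (fun z0 z1 z2 =>
      Real.exp (-(a * K)) * Real.exp (a * X z0 z1 z2)) := by
    refine Et_mono h hx hχ ((hXe a).const_mul _) fun z0 z1 z2 => ?_
    rw [← Real.exp_add]
    rcases le_or_gt (χ z0 z1 z2) 0 with h4 | h4
    · exact h4.trans (Real.exp_pos _).le
    · have h5 := mul_le_mul_of_nonneg_left (hK z0 z1 z2 h4) ha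
      exact (c1 z0 z1 z2).trans (Real.one_le_exp (by linarith))
  rw [Et_const_mul] at h2
  refine h2.trans ((mul_le_mul_of_nonneg_left hE (Real.exp_pos _).le).trans (le_of_eq ?_))
  rw [← Real.exp_add]
  congr 1
  ring

end gen

end Vale.Agent.P146.U.R1
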