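import Vale.Agent.P146.U.H622.F1b

/-!
Self-averaging from below at every later time under the law with an outer exponent.
-/

open MeasureTheory ProbabilityTheory

namespace Vale.Agent.P146.U.R1

open Vale.Agent.P157.Lv Vale.Agent.P146.H425 Vale.Agent.P146.R1 Vale.Agent.P146.H327

set_option linter.unusedSectionVars false

variable {κ : Type} [Fintype κ] {F : (κ → ℝ) → ℝ} {D : κ → (κ → ℝ) → ℝ}
  {B L x θ η t0 t1 s t X l : ℝ} {χ χ1 : (κ → ℝ) → (κ → ℝ) → (κ → ℝ) → ℝ}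

/-- the value function may be replaced by its conditional mean -/
lemma Et_back (h : C11 F D B L) (hx : 0 < x) (h1 : t1 ≤ s) (hs : s ≤ 1) :
    Et x θ η t0 t1 s F (fun _ z1 z2 => Real.exp (x * uu x t1 F z1) *
      Real.exp (-x * uu x s F z2)) = 1 := by
  unfold Et
  rw [div_eq_one_iff_eq (Eu_one_pos h hx).ne',
    Eu_iter h hx ((E3.of1 (eg_exp_uu h hx t1 x)).mul (E3.of2 (eg_exp_uu h hx s (-x)))),
    Eu_fst (ψ := fun _ _ => 1) h hx (E3.const 1) h1 hs]
  refine integral_congr_ae (Filter.Eventually.of_forall fun y0 => ?_)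
  refine integral_congr_ae (Filter.Eventually.of_forall fun y1 => ?_)
  simp only
  have e : ∀ y2 : κ → ℝ, dn x θ η t0 t1 s F (√t0 • y0) (√t0 • y0 + √(t1 - t0) • y1)
      (√t0 • y0 + √(t1 - t0) • y1 + √(s - t1) • y2) *
      (Real.exp (x * uu x t1 F (√t0 • y0 + √(t1 - t0) • y1)) *
        Real.exp (-x * uu x s F (√t0 • y0 + √(t1 - t0) • y1 + √(s - t1) • y2))) =
      Real.exp (x * uu x t1 F (√t0 • y0 + √(t1 - t0) • y1) +
        θ * xi x t0 t1 F (√t0 • y0) (√t0 • y0 + √(t1 - t0) • y1) -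
        η * (x * uu x t0 F (√t0 • y0))) * 1 := by
    intro y2
    unfold dn
    rw [← Real.exp_add, ← Real.exp_add, mul_one]
    congr 1
    ring
  simp_rw [e]
  rw [integral_const]
  simp

/-- small gradient at the time `s` is incompatible with a gain, under `P_{0,η}` -/
lemma low_x (h : C11 F D B L) (hx : 0 < x) (h01 : t0 ≤ t1) (h1 : t1 ≤ s)
    (hs : s ≤ 1) (hsl : Slice x t0 s l F D) (hχ : E3 χ)
    (c1 : ∀ z0 z1 z2, χ z0 z1 z2 ≤ 1)
    (ha : ∀ z0 z1 z2, χ z0 z1 z2 ≠ 0 → sq x s F D z2 ≤ l ^ 2)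
    (hb : ∀ z0 z1 z2, χ z0 z1 z2 ≠ 0 → X ≤ x * (uu x s F z2 - uu x t0 F z0)) :
    Et x 0 η t0 t1 s F χ ≤ Real.exp (-X + (2 * x) ^ 2 * l ^ 2 * (s - t0)) := by
  set g : (κ → ℝ) → ℝ := fun z => if sq x s F D z ≤ l ^ 2 then Real.exp (x * uu x s F z) else 0
    with hg
  have eg1 : EG g := eg_ite_sq h hx s _ (eg_exp_uu h hx s x)
  have ha' : EG fun z => Real.exp (-x * uu x t0 F z) := eg_exp_uu h hx t0 (-x)
  have hE : E3 fun z0 (_ : κ → ℝ) z2 => Real.exp (-x * uu x t0 F z0) * g z2 :=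
    (E3.of0 ha').mul (E3.of2 eg1)
  have k1 : Et x 0 η t0 t1 s F χ ≤ Real.exp (-X) *
      Et x 0 η t0 t1 s F (fun z0 _ z2 => Real.exp (-x * uu x t0 F z0) * g z2) := by
    rw [← Et_const_mul]
    refine Et_mono h hx hχ (hE.const_mul _) fun z0 z1 z2 => ?_
    rcases eq_or_ne (χ z0 z1 z2) 0 with h4 | h4
    · rw [h4]
      have : 0 ≤ g z2 := by
        simp only [hg]
        split_ifs
        · exact (Real.exp_pos _).le
        · exact le_rfl
      positivity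
    · simp only [hg, if_pos (ha z0 z1 z2 h4)]
      rw [← Real.exp_add, ← Real.exp_add]
      refine (c1 z0 z1 z2).trans (Real.one_le_exp ?_)
      have := hb z0 z1 z2 h4
      linarith
  refine k1.trans ?_
  rw [Real.exp_add]
  refine mul_le_mul_of_nonneg_left ?_ (Real.exp_pos _).le
  unfold Et
  rw [div_le_iff₀ (Eu_one_pos h hx), Eu_zero_one h hx h01 h1 hs,
    Eu_zero (ψ := fun z0 z2 => Real.exp (-x * uu x t0 F z0) * g z2) h hx hE h01 h1]
  unfold Zo
  rw [← integral_const_mul]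
  have i1 : EG fun y0 : κ → ℝ => Real.exp ((2 * x) ^ 2 * l ^ 2 * (s - t0)) *
      Real.exp ((1 - η) * (x * uu x t0 F (√t0 • y0))) := by
    have := (EG.smul' (eg_exp_uu h hx t0 ((1 - η) * x)) (√t0)).const_mul
      (Real.exp ((2 * x) ^ 2 * l ^ 2 * (s - t0)))
    simpa only [mul_assoc] using this
  refine integral_mono_of_nonneg (Filter.Eventually.of_forall fun y0 =>
    mul_nonneg (Real.exp_pos _).le (integral_nonneg fun y =>
      mul_nonneg (Real.exp_pos _).le (mul_nonneg (Real.exp_pos _).le ?_))) i1.integrable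
    (Filter.Eventually.of_forall fun y0 => ?_)
  · simp only [hg]
    split_ifs
    · exact (Real.exp_pos _).le
    · exact le_rfl
  simp only
  have h5 := hsl (√t0 • y0)
  have e3 : ∫ y, Real.exp (x * uu x s F (√t0 • y0 + √(s - t0) • y)) *
      (Real.exp (-x * uu x t0 F (√t0 • y0)) * g (√t0 • y0 + √(s - t0) • y)) ∂(gI κ) =
      Real.exp (x * uu x t0 F (√t0 • y0)) *
      ∫ y, (if sq x s F D (√t0 • y0 + √(s - t0) • y) ≤ l ^ 2 then
    Real.exp (2 * x * (uu x s F (√t0 • y0 + √(s - t0) • y) - uu x t0 F (√t0 • y0))) else 0)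
      ∂(gI κ) := by
    rw [← integral_const_mul]
    refine integral_congr_ae (Filter.Eventually.of_forall fun y => ?_)
    simp only [hg]
    split_ifs
    · rw [← Real.exp_add, ← Real.exp_add, ← Real.exp_add]
      congr 1
      ring
    · simp
  rw [e3, ← mul_assoc, ← Real.exp_add]
  have e4 : -(η * (x * uu x t0 F (√t0 • y0))) + x * uu x t0 F (√t0 • y0) =
      (1 - η) * (x * uu x t0 F (√t0 • y0)) := by ring
  rw [e4, mul_comm (Real.exp ((2 * x) ^ 2 * l ^ 2 * (s - t0)))]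
  exact mul_le_mul_of_nonneg_left h5 (Real.exp_pos _).le

/-- **Self-averaging from below at the time `s`.** -/
theorem low_chi (h : C11 F D B L) (hx : 0 < x) (h01 : t0 ≤ t1) (h1 : t1 ≤ s)
    (hs : s ≤ 1) (hL : 0 ≤ Lth x θ η t0 t1 F) (hsl : Slice x t0 s l F D) (hχ : E3 χ)
    (c0 : ∀ z0 z1 z2, 0 ≤ χ z0 z1 z2) (c1 : ∀ z0 z1 z2, χ z0 z1 z2 ≤ 1)
    (ha : ∀ z0 z1 z2, χ z0 z1 z2 ≠ 0 → sq x s F D z2 ≤ l ^ 2)
    (hχ1 : E3 χ1) (d0 : ∀ z0 z1 z2, 0 ≤ χ1 z0 z1 z2)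
    (d1 : ∀ z0 z1 z2, xi x t0 t1 F z0 z1 < X → 1 ≤ χ1 z0 z1 z2) :
    Et x θ η t0 t1 s F χ ≤ Et x θ η t0 t1 s F χ1 + Real.exp (-X / 2) +
      Real.exp (Lth x (2 * θ) η t0 t1 F / 2 - X / 4 + 2 * x ^ 2 * l ^ 2 * (s - t0)) := by
  classical
  have hW : E3 fun z0 (_ : κ → ℝ) z2 => x * (uu x s F z2 - uu x t0 F z0) :=
    ((E3.of2 (eg_uu h hx s)).sub (E3.of0 (eg_uu h hx t0))).const_mul x
  set A : (κ → ℝ) → (κ → ℝ) → (κ → ℝ) → ℝ := fun z0 z1 z2 =>
    if X / 2 ≤ x * (uu x s F z2 - uu x t0 F z0) then χ z0 z1 z2 else 0 with hA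
  have eA : E3 A := by
    obtain ⟨C, k, hC, hk, hbd⟩ := id hχ.bdd
    refine ⟨Measurable.ite (measurableSet_le measurable_const hW.meas) hχ.meas
      measurable_const, C, k, hC, hk, fun z => ?_⟩
    simp only [hA]
    split_ifs
    · exact hbd z
    · rw [abs_zero]; positivity
  have A0 : ∀ z0 z1 z2, 0 ≤ A z0 z1 z2 := fun z0 z1 z2 => by
    simp only [hA]
    split_ifs
    · exact c0 _ _ _
    · exact le_rfl
  have A1 : ∀ z0 z1 z2, A z0 z1 z2 ≤ 1 := fun z0 z1 z2 => by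
    simp only [hA]
    split_ifs
    · exact c1 _ _ _
    · exact zero_le_one
  have A2 : ∀ z0 z1 z2, A z0 z1 z2 ≠ 0 → X / 2 ≤ x * (uu x s F z2 - uu x t0 F z0) ∧
      χ z0 z1 z2 ≠ 0 := fun z0 z1 z2 hne => by
    by_cases hc : X / 2 ≤ x * (uu x s F z2 - uu x t0 F z0)
    · refine ⟨hc, ?_⟩
      simpa only [hA, if_pos hc] using hne
    · exact absurd (by simp only [hA, if_neg hc]) hne
  set R : (κ → ℝ) → (κ → ℝ) → (κ → ℝ) → ℝ := fun _ z1 z2 =>
    Real.exp (-X / 2) * (Real.exp (x * uu x t1 F z1) * Real.exp (-x * uu x s F z2)) with hR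
  have eR : E3 R :=
    ((E3.of1 (eg_exp_uu h hx t1 x)).mul (E3.of2 (eg_exp_uu h hx s (-x)))).const_mul _
  have k1 : Et x θ η t0 t1 s F χ ≤ Et x θ η t0 t1 s F (fun z0 z1 z2 =>
      χ1 z0 z1 z2 + R z0 z1 z2 + A z0 z1 z2) := by
    refine Et_mono h hx hχ ((hχ1.add eR).add eA) fun z0 z1 z2 => ?_
    have r0 : 0 ≤ R z0 z1 z2 := by simp only [hR]; positivity
    have a0 := A0 z0 z1 z2
    have x0 := d0 z0 z1 z2
    have xx := c1 z0 z1 z2
    by_cases g1 : xi x t0 t1 F z0 z1 < X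
    · have := d1 z0 z1 z2 g1
      linarith
    · by_cases g2 : X / 2 ≤ x * (uu x s F z2 - uu x t0 F z0)
      · have : A z0 z1 z2 = χ z0 z1 z2 := by simp only [hA, if_pos g2]
        linarith
      · have g3 : 1 ≤ R z0 z1 z2 := by
          simp only [hR]
          rw [← Real.exp_add, ← Real.exp_add]
          refine Real.one_le_exp ?_
          unfold xi at g1
          push Not at g1 g2
          linarith
        linarith
  rw [Et_add h hx (hχ1.add eR) eA, Et_add h hx hχ1 eR] at k1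
  have k2 : Et x θ η t0 t1 s F R = Real.exp (-X / 2) := by
    simp only [hR]
    rw [Et_const_mul, Et_back h hx h1 hs, mul_one]
  have k3 : Et x θ η t0 t1 s F A ≤
      Real.exp (Lth x (2 * θ) η t0 t1 F / 2 - X / 4 + 2 * x ^ 2 * l ^ 2 * (s - t0)) := by
    refine (transfer h hx eA h01 h1 hs).trans ?_
    have h6 := low_x (X := X / 2) (η := η) h hx h01 h1 hs hsl (eA.pow 2)
      (fun z0 z1 z2 => by nlinarith [A0 z0 z1 z2, A1 z0 z1 z2])
      (fun z0 z1 z2 hne => ha z0 z1 z2 (A2 z0 z1 z2 (by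
        intro h0
        exact hne (by rw [h0]; norm_num))).2)
      (fun z0 z1 z2 hne => (A2 z0 z1 z2 (by
        intro h0
        exact hne (by rw [h0]; norm_num))).1)
    refine (mul_le_mul (Real.exp_le_exp.2 (show Lth x (2 * θ) η t0 t1 F / 2 -
      Lth x θ η t0 t1 F ≤ Lth x (2 * θ) η t0 t1 F / 2 by linarith)) (Real.sqrt_le_sqrt h6)
      (Real.sqrt_nonneg _) (Real.exp_pos _).le).trans (le_of_eq ?_)
    rw [← Real.exp_half, ← Real.exp_add]
    congr 1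
    ring
  linarith

open Classical in
/-- **Self-averaging from below at the time `s`**, with the slice lemma. -/
theorem sa (h : C11 F D B L) (hc : Cv F) (hx : 0 < x) (h01 : t0 ≤ t1)
    (h1 : t1 ≤ s) (hs : s ≤ 1) (hL : 0 ≤ Lth x θ η t0 t1 F) (X l : ℝ) :
    Et x θ η t0 t1 s F (fun _ _ z2 => if sq x s F D z2 ≤ l ^ 2 then (1 : ℝ) else 0) ≤
      Et x θ η t0 t1 s F (fun z0 z1 _ => if xi x t0 t1 F z0 z1 < X then (1 : ℝ) else 0) +
      Real.exp (-X / 2) +
      Real.exp (Lth x (2 * θ) η t0 t1 F / 2 - X / 4 + 2 * x ^ 2 * l ^ 2 * (s - t0)) := by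
  refine low_chi h hx h01 h1 hs hL (slice h hc hx (h01.trans h1) hs l)
    (e3_ind_sq2 h hx s (l ^ 2)) (fun _ _ _ => ?_) (fun _ _ _ => ?_) (fun z0 z1 z2 hne => ?_)
    (e3_ind_xi h hx t0 t1 X) (fun _ _ _ => ?_) (fun z0 z1 z2 hlt => ?_)
  · split_ifs <;> norm_num
  · split_ifs <;> norm_num
  · by_contra hn
    exact hne (if_neg hn)
  · split_ifs <;> norm_num
  · rw [if_pos hlt]

end Vale.Agent.P146.U.R1
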