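import Vale.Agent.P146.U.Ex3e

/-!
# P146: the L-side at a general exponent `x ≤ b ≤ 2x`, and the tail of the windows

`lside'`: the analogue of `lside` with the exponent `b ∈ [x, 2x]` on the last window;
`tailb`: for every `ε` there is `C` such that the cost of the exponent `b` on the windows
`[C x², 1/2]` is at most `ε (b - x) N x⁴`.
-/

open MeasureTheory ProbabilityTheory

namespace Vale.Agent.P146.U.Fr

open Vale.Agent.P157.Lv Vale.Agent.P146.H425 Vale.Agent.P146.R1 Vale.Agent.P146.U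

set_option linter.unusedSectionVars false

variable {κ : Type} [Fintype κ] {F X : (κ → ℝ) → ℝ} {D : κ → (κ → ℝ) → ℝ}
  {B L x a b G M σ T N : ℝ}

/-- the lower bound of the share -/
lemma l_low' (q : Par3 G x M σ T) (h : C11 F D B L) (hc : Cv F) (hU : UP G x M F)
    (hxb : x ≤ b) (hb2 : b ≤ 2 * x) (hcon : G / σ ^ 2 < T * ST x b T F D) :
    x / 16 * G * σ ^ 38 ≤
      Q3 x (x * σ ^ 40) (x * σ ^ 2) (T / 2) (T / 2) F - PT x (x * σ ^ 2) (T / 2) F := by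
  have hx := q.hx
  have hG := q.hG
  have hσ0 := q.σ0
  have hσ1 := q.σ1
  have hσ4 := q.hσ4
  have hT0 := q.T0
  have hxT := q.xT
  have hx2 : 0 < x ^ 2 := by positivity
  have e2 : T / 2 + T / 2 = T := by ring
  have h2 := Q3_low (a := x * σ ^ 40) (τ := T / 2) (T := T / 2) h hc hx hxb
    (hb2.trans q.xy) (by linarith [q.ya, q.xy]) (by positivity)
    (by positivity) (by rw [e2]; linarith [q.hT1])
  rw [e2] at h2
  have h3 := hU.bd hG hx q.hM.le hσ1 (b := x * σ ^ 2) (T := T / 2) (by linarith [q.xy])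
    (by linarith [q.hT1]) (by linarith) (by rw [← q.hT]; linarith)
  have h4 : x * σ ^ 40 / 2 ≤ x * σ ^ 40 - b := by
    have : 4 ≤ σ ^ 40 := by
      calc (4 : ℝ) ≤ σ := hσ4
        _ ≤ σ ^ 40 := le_self_pow₀ hσ1 (by norm_num)
    nlinarith
  have h5 : x / 8 * G * σ ^ 38 ≤
      (x * σ ^ 40 - b) / 2 * (T / 2 * ST x b T F D) := by
    have h6 : x * σ ^ 40 / 4 * (1 / 2 * (G / σ ^ 2)) ≤
        (x * σ ^ 40 - b) / 2 * (T / 2 * ST x b T F D) := by
      refine mul_le_mul (by linarith) (by linarith) (by positivity) ?_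
      have : 0 ≤ x * σ ^ 40 := by positivity
      linarith
    refine le_trans (le_of_eq ?_) h6
    field_simp
    norm_num
  have h6 : M * (G * (x * σ ^ 2) * ((x * σ ^ 2) / x) ^ 5 * σ ^ 20) ≤
      x / 16 * G * σ ^ 38 := by
    have e3 : (x * σ ^ 2) / x = σ ^ 2 := by field_simp
    rw [e3]
    have e4 : M * (G * (x * σ ^ 2) * (σ ^ 2) ^ 5 * σ ^ 20) =
        (x * G * σ ^ 32) * M := by ring
    have e5 : x / 16 * G * σ ^ 38 = (x * G * σ ^ 32) * (σ ^ 6 / 16) := by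
      ring
    rw [e4, e5]
    refine mul_le_mul_of_nonneg_left ?_ (by positivity)
    have : σ ≤ σ ^ 6 := le_self_pow₀ hσ1 (by norm_num)
    linarith [q.hσM]
  have e7 : x / 8 * G * σ ^ 38 = x / 16 * G * σ ^ 38 + x / 16 * G * σ ^ 38 := by ring
  rw [e7] at h5
  linarith

/-- **The selection.** -/
lemma l_sel' (q : Par3 G x M σ T) (h : C11 F D B L) (hc : Cv F) (hU : UP G x M F)
    (hxb : x ≤ b) (hb2 : b ≤ 2 * x) (hcon : G / σ ^ 2 < T * ST x b T F D) :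
    ∃ (a t Δ : ℝ) (j i : ℕ), a = 4 ^ j * (x * σ ^ 40) ∧ (4 : ℝ) ^ j ≤ σ ^ 261 ∧
      ((2 : ℝ) ^ mG) ^ i ≤ σ ^ 261 ∧ t = T / 2 / lG ^ i ∧
      Δ = Q3 x a (x * σ ^ 2) (T / 2) t F - Q3 x x (x * σ ^ 2) (T / 2) t F ∧
      Q3 x (4 * a) (x * σ ^ 2) (T / 2) t F - Q3 x x (x * σ ^ 2) (T / 2) t F ≤ 4 ^ 8 * Δ ∧
      Q3 x a (x * σ ^ 2) (T / 2) (t / lG) F - Q3 x x (x * σ ^ 2) (T / 2) t F ≤ 1 / 2 * Δ ∧
      x / 16 * G * σ ^ 38 * 4 ^ (8 * j) ≤ Δ * 2 ^ i ∧
      Δ ≤ a / 2 * t * mm G x M σ T a := by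
  have hx := q.hx
  have hG := q.hG
  have hσ0 := q.σ0
  have hσ1 := q.σ1
  have hM := q.hM
  have hT0 := q.T0
  have hT1 := q.hT1
  have hy0 := q.y0
  have hl := lG_pos
  have hl1 := lG_one
  have hA : 0 < x / 16 * G * σ ^ 38 := by positivity
  have h00 := l_low' q h hc hU hxb hb2 hcon
  obtain ⟨j, i, hj, hi, hΔ, h4, hhalf⟩ := grid_max
    (f := fun j i => Q3 x (4 ^ j * (x * σ ^ 40)) (x * σ ^ 2) (T / 2) (T / 2 / lG ^ i) F -
      PT x (x * σ ^ 2) (T / 2) F) mG_ne hA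
    (by simpa using h00) (fun j i => l_up q h hc hU j i)
  have hE : 16 * M * σ ^ 260 ≤ σ ^ 261 := by
    have : σ ^ 261 = σ * σ ^ 260 := by ring
    rw [this]
    exact mul_le_mul_of_nonneg_right q.hσM (by positivity)
  have hj4 : (1 : ℝ) ≤ 4 ^ j := one_le_pow₀ (by norm_num)
  have hli : 1 ≤ lG ^ i := one_le_pow₀ hl1
  have ht0 : 0 < T / 2 / lG ^ i := by positivity
  have htT : T / 2 / lG ^ i ≤ T / 2 := div_le_self (by positivity) hli
  have hTl : T / 2 / lG ^ (i + 1) = T / 2 / lG ^ i / lG := by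
    rw [pow_succ, div_div, div_div, div_div]
  have haj' : 4 ^ (j + 1) * (x * σ ^ 40) = 4 * (4 ^ j * (x * σ ^ 40)) := by
    rw [pow_succ]
    ring
  have haa : x * σ ^ 40 ≤ 4 ^ j * (x * σ ^ 40) := le_mul_of_one_le_left (by positivity) hj4
  have hya : 2 * (x * σ ^ 2) ≤ 4 ^ j * (x * σ ^ 40) := q.ya.trans haa
  have hQx : Q3 x x (x * σ ^ 2) (T / 2) (T / 2 / lG ^ i) F = PT x (x * σ ^ 2) (T / 2) F :=
    Q3_x h hx hy0 ht0.le (by linarith)
  rw [haj'] at h4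
  rw [hTl] at hhalf
  refine ⟨4 ^ j * (x * σ ^ 40), T / 2 / lG ^ i,
    Q3 x (4 ^ j * (x * σ ^ 40)) (x * σ ^ 2) (T / 2) (T / 2 / lG ^ i) F -
      PT x (x * σ ^ 2) (T / 2) F, j, i, rfl, hj.trans hE, hi.trans hE, rfl, ?_, ?_, ?_, ?_,
    l_up1 q h hc hU hya ht0.le htT⟩
  · rw [hQx]
  · rw [hQx]
    exact h4
  · rw [hQx]
    exact hhalf
  · rwa [div_le_iff₀ (by positivity)] at hΔ

/-- **The L-side** at the exponent `b ∈ [x, 2x]`. -/
theorem lside' (q : Par3 G x M σ T) (hN : 0 < N) (hGN : G = N * x ^ 4) (hNx : 1 ≤ N * x ^ 6)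
    (h : C11 F D B L) (hc : Cv F) (hU : UP G x M F) {Λ1 CL : ℝ}
    (hCL : 0 < CL) (hL : HL N x Λ1 CL F) (hσΛ : 16 * Λ1 ≤ σ) (hσC : 16 * CL ≤ σ)
    (hxb : x ≤ b) (hb2 : b ≤ 2 * x) :
    T * ST x b T F D ≤ G / σ ^ 2 := by
  by_contra hcon
  push Not at hcon
  obtain ⟨a, t, Δ, j, i, hja, hj, hi, ht, hΔd, h4, hhalf, hΔ, hΔu⟩ := l_sel' q h hc hU hxb hb2 hcon
  have hx := q.hx
  have hG := q.hG
  have hσ0 := q.σ0
  have hσ1 := q.σ1
  have hl := lG_pos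
  have hT0 := q.T0
  have hj4 : (1 : ℝ) ≤ 4 ^ j := one_le_pow₀ (by norm_num)
  have haa : x * σ ^ 40 ≤ a := by
    rw [hja]
    exact le_mul_of_one_le_left (by positivity) hj4
  have ha0 : 0 < a := lt_of_lt_of_le (by positivity) haa
  have hli : 1 ≤ lG ^ i := one_le_pow₀ lG_one
  have ht0 : 0 < t := by
    rw [ht]
    exact div_pos (half_pos hT0) (by linarith)
  have htT : t ≤ T / 2 := by
    rw [ht]
    exact div_le_self (by positivity) hli
  have h301 := d_a hx hσ0 hja hj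
  have hlow := d_T q hi ht
  have hx2 : 0 < x ^ 2 := by positivity
  have hxt : x ^ 2 ≤ t := by
    have h3 : (2 : ℝ) ≤ σ ^ 1738 := by
      calc (2 : ℝ) ≤ σ := by linarith [q.hσ4]
        _ ≤ σ ^ 1738 := le_self_pow₀ hσ1 (by norm_num)
    have := mul_le_mul_of_nonneg_left h3 hx2.le
    linarith
  have h2i : (0 : ℝ) < 2 ^ i := by positivity
  have hΔ0 : 0 ≤ Δ := by
    have h5 : 0 ≤ Δ * 2 ^ i := le_trans (by positivity) hΔ
    exact nonneg_of_mul_nonneg_left h5 h2i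
  have hya : 2 * (x * σ ^ 2) ≤ a := q.ya.trans haa
  obtain ⟨hA1, hA2⟩ := d_act q hGN hNx (d_i hσ0 hi) hja hΔ0 hσΛ hΔ
  have hρ : Δ / (a * N * t) ≤ x ^ 2 := by
    refine le_trans ?_ (d_ρ q hN hGN ha0 h301)
    rw [div_le_div_iff₀ (by positivity) hN]
    have hm0 : 0 ≤ mm G x M σ T a := by
      have := q.hM
      unfold mm
      positivity
    have h5 : Δ * N ≤ (a / 2 * t * mm G x M σ T a) * N := mul_le_mul_of_nonneg_right hΔu hN.le
    have h6 : 0 ≤ mm G x M σ T a * (a * N * t) := mul_nonneg hm0 (by positivity)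
    have e : (a / 2 * t * mm G x M σ T a) * N = mm G x M σ T a * (a * N * t) / 2 := by ring
    rw [e] at h5
    linarith
  have hLL := hL a (x * σ ^ 2) (T / 2) t Δ (by linarith [q.xy]) (by linarith [q.y0])
    (d_a2 q ha0.le h301) (by positivity) (by linarith [q.hT1]) hxt (by linarith [q.hT1])
    hΔd h4 hhalf hA1 hA2
  exact d_fin q hN hNx hCL hσC hlow h301 hρ hLL

/-- the gradient beyond the window `x² s^2000` -/
lemma e_grad' (h : C11 F D B L) (hc : Cv F) {Λ1 CL s : ℝ} (q : HE N x M Λ1 CL s F)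
    {t u : ℝ} (hu : u = x ^ 2 * s ^ 2000) (ht : u ≤ t) (ht1 : t ≤ 1 / 2)
    (hxb : x ≤ b) (hb2 : b ≤ 2 * x) :
    ST x b t F D ≤ N * x ^ 4 / (s ^ 2 * u) := by
  obtain ⟨hN, hNx, hx, hx1, hM, hCL, hU, hL, hs4, hsM, hsΛ, hsC⟩ := q
  have hs0 : 0 < s := by linarith
  have hx2 : 0 < x ^ 2 := by positivity
  have hx4 : 0 < x ^ 4 := by positivity
  have hG0 : 0 < N * x ^ 4 := mul_pos hN hx4
  have hu0 : 0 < u := by rw [hu]; exact mul_pos hx2 (pow_pos hs0 _)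
  have ht0 : 0 < t := hu0.trans_le ht
  have htx : 0 ≤ t / x ^ 2 := div_nonneg ht0.le hx2.le
  obtain ⟨σ, hσ⟩ : ∃ σ, σ = (t / x ^ 2) ^ (1 / 2000 : ℝ) := ⟨_, rfl⟩
  have hσ2 : σ ^ 2000 = t / x ^ 2 := by
    rw [hσ]
    exact rpow_2000 htx
  have hsσ : s ≤ σ := by
    have h1 : s ^ 2000 ≤ t / x ^ 2 := by
      rw [le_div_iff₀ hx2, mul_comm, ← hu]
      exact ht
    have h2 : (s ^ 2000) ^ (1 / 2000 : ℝ) ≤ (t / x ^ 2) ^ (1 / 2000 : ℝ) :=
      Real.rpow_le_rpow (pow_nonneg hs0.le _) h1 (by norm_num)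
    rw [rpow_inv_2000 hs0.le, ← hσ] at h2
    exact h2
  have htσ : t = x ^ 2 * σ ^ 2000 := by
    rw [hσ2]
    exact (mul_div_cancel₀ t hx2.ne').symm
  have h1 := lside' (x := x) (b := b) (G := N * x ^ 4) (M := M) (σ := σ) (T := t)
    ⟨hG0, hx, by linarith, hM,
    hs4.trans hsσ, hsM.trans hsσ, htσ, ht1⟩ hN rfl hNx h hc hU hCL hL (hsΛ.trans hsσ)
    (hsC.trans hsσ) hxb hb2
  generalize N * x ^ 4 = G at h1 hG0 ⊢
  have hs2 : 0 < s ^ 2 := pow_pos hs0 _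
  have h2 : G / σ ^ 2 ≤ G / s ^ 2 := by
    refine div_le_div_of_nonneg_left hG0.le hs2 ?_
    exact pow_le_pow_left₀ hs0.le hsσ 2
  have h3 : t * ST x b t F D ≤ G / s ^ 2 := h1.trans h2
  have h4 : 0 ≤ ST x b t F D := Ps_nonneg h (hx.trans_le hxb)
  have h5 : u * ST x b t F D ≤ G / s ^ 2 :=
    (mul_le_mul_of_nonneg_right ht h4).trans h3
  rw [le_div_iff₀ hs2] at h5
  rw [le_div_iff₀ (mul_pos hs2 hu0)]
  refine le_trans (le_of_eq ?_) h5
  ring

/-- one more window -/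
lemma e_step' (h : C11 F D B L) (hc : Cv F) {Λ1 CL s : ℝ} (q : HE N x M Λ1 CL s F)
    {T u : ℝ} (hu : u = x ^ 2 * s ^ 2000) (hT : u ≤ T) (hT1 : T ≤ 1 / 2) (hT2 : T ≤ kG * u)
    (hxb : x ≤ b) (hb2 : b ≤ 2 * x) :
    PT x b T F ≤ PT x b u F + kG / (2 * s ^ 2) * (N * x ^ 4 * (b - x)) := by
  have hx := q.hx
  have hN := q.hN
  have hs0 : 0 < s := by linarith [q.hs4]
  have hk := kG_pos
  have hx2 : 0 < x ^ 2 := by positivity
  have hx4 : 0 < x ^ 4 := by positivity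
  have hG0 : 0 < N * x ^ 4 := mul_pos hN hx4
  have hu0 : 0 < u := by rw [hu]; exact mul_pos hx2 (pow_pos hs0 _)
  obtain ⟨m, hm⟩ : ∃ m, m = N * x ^ 4 / (s ^ 2 * u) := ⟨_, rfl⟩
  have hm0 : 0 < m := by
    rw [hm]
    exact div_pos hG0 (mul_pos (pow_pos hs0 _) hu0)
  have h2 := PT_drop (b := b) (m := m) h hc hx hxb hu0.le hT (by linarith)
    (fun t ht ht' => by
      rw [hm]
      exact e_grad' h hc q hu ht (ht'.trans hT1) hxb hb2)
  have hbx : 0 ≤ b - x := sub_nonneg.2 hxb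
  have h5 : (b - x) / 2 * (T - u) * m ≤ (b - x) / 2 * (kG * u) * m := by
    refine mul_le_mul_of_nonneg_right ?_ hm0.le
    have h6 : T - u ≤ kG * u := (sub_le_self _ hu0.le).trans hT2
    exact mul_le_mul_of_nonneg_left h6 (by positivity)
  have h6 : (b - x) / 2 * (kG * u) * m = kG / (2 * s ^ 2) * (N * x ^ 4 * (b - x)) := by
    rw [hm]
    clear hu hT2 hT hm h2 h5 q
    generalize kG = k
    generalize N * x ^ 4 = G at hG0 ⊢
    generalize b - x = d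
    field_simp
  rw [h6] at h5
  exact h2.trans (add_le_add le_rfl h5)

/-- **The tail.** For every `ε` there is `C` such that the cost of the exponent `b ∈ [x, 2x]` on
the windows `[C x², 1/2]` is at most `ε (b - x) N x⁴`. -/
theorem tailb {M Λ1 CL ε : ℝ} (hM : 0 < M) (hCL : 0 < CL) (hε : 0 < ε) : ∃ C : ℝ, 1 ≤ C ∧
    ∀ (κ : Type) [Fintype κ] (F : (κ → ℝ) → ℝ) (D : κ → (κ → ℝ) → ℝ) (B L N x b T : ℝ),
      C11 F D B L → Cv F → 0 < N → 0 < x → x ≤ 1 / 2 → 1 ≤ N * x ^ 6 →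
      UP (N * x ^ 4) x M F → HL N x Λ1 CL F → x ≤ b → b ≤ 2 * x →
      C * x ^ 2 ≤ T → T ≤ 1 / 2 →
      PT x b (1 / 2) F - PT x b T F ≤ ε * (N * x ^ 4 * (b - x)) := by
  have hk := kG_pos
  obtain ⟨s, hs4, hsM, hsΛ, hsC, hsε⟩ : ∃ s : ℝ, 4 ≤ s ∧ 16 * M ≤ s ∧
      16 * Λ1 ≤ s ∧ 16 * CL ≤ s ∧ kG / ε ≤ s :=
    ⟨max 4 (max (16 * M) (max (16 * Λ1) (max (16 * CL) (kG / ε)))), by simp, by simp,
      by simp, by simp, by simp⟩
  have hs0 : 0 < s := by linarith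
  refine ⟨s ^ 2000, one_le_pow₀ (by linarith),
    fun κ _ F D B L N x b T₁ h hc hN hx hx1 hNx hU hL hxb hb2 hT₁ hT₁' => ?_⟩
  have hx2 : 0 < x ^ 2 := by positivity
  have hx4 : 0 < x ^ 4 := by positivity
  have hG0 : 0 < N * x ^ 4 := mul_pos hN hx4
  have hbx : 0 ≤ b - x := sub_nonneg.2 hxb
  -- the unit
  obtain ⟨g, hg⟩ : ∃ g, g = N * x ^ 4 * (b - x) := ⟨_, rfl⟩
  have hg0 : 0 ≤ g := by rw [hg]; exact mul_nonneg hG0.le hbx
  -- the windows
  obtain ⟨σ, hσ⟩ : ∃ σ : ℕ → ℝ, ∀ k, σ k = 2 ^ k * s := ⟨fun k => 2 ^ k * s, fun _ => rfl⟩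
  have hσs : ∀ k, s ≤ σ k := fun k => by
    rw [hσ]
    exact le_mul_of_one_le_left hs0.le (one_le_pow₀ (by norm_num))
  have hσ0 : ∀ k, 0 < σ k := fun k => hs0.trans_le (hσs k)
  obtain ⟨Tk, hTk⟩ : ∃ Tk : ℕ → ℝ, ∀ k, Tk k = x ^ 2 * σ k ^ 2000 := ⟨_, fun _ => rfl⟩
  have hTs : ∀ k, Tk (k + 1) = kG * Tk k := fun k => by
    have e : σ (k + 1) = 2 * σ k := by
      rw [hσ, hσ, pow_succ]
      ring
    rw [hTk, hTk, e, kG_eq]
    exact mul_left_comm _ _ _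
  have hT00 : Tk 0 = s ^ 2000 * x ^ 2 := by
    rw [hTk, hσ, pow_zero, one_mul, mul_comm]
  have hTk0 : ∀ k, 0 < Tk k := fun k => by
    rw [hTk]
    exact mul_pos hx2 (pow_pos (hσ0 k) _)
  have hTk00 : ∀ k, Tk 0 ≤ Tk k := fun k => by
    rw [hTk, hTk]
    refine mul_le_mul_of_nonneg_left (pow_le_pow_left₀ (hσ0 0).le ?_ _) hx2.le
    rw [hσ, pow_zero, one_mul]
    exact hσs k
  have key : ∀ k : ℕ, ∀ T, Tk 0 ≤ T → T ≤ 1 / 2 → T ≤ Tk k →
      PT x b T F ≤ PT x b (Tk 0) F + kG / s ^ 2 * (1 - (1 / 4) ^ k) * g := by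
    intro k
    induction k with
    | zero =>
      intro T hT0 hT1 hT
      rw [le_antisymm hT hT0, pow_zero, sub_self, mul_zero, zero_mul, add_zero]
    | succ k ih =>
      intro T hT0 hT1 hT
      rcases le_total T (Tk k) with hle | hge
      · refine (ih T hT0 hT1 hle).trans (add_le_add le_rfl ?_)
        have h2 : (1 / 4 : ℝ) ^ (k + 1) ≤ (1 / 4) ^ k :=
          pow_le_pow_of_le_one (by norm_num) (by norm_num) (Nat.le_succ k)
        exact mul_le_mul_of_nonneg_right (mul_le_mul_of_nonneg_left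
          (sub_le_sub_left h2 _) (by positivity)) hg0
      · have h1 := ih (Tk k) (hTk00 k) (hge.trans hT1) le_rfl
        rw [hTs] at hT
        have h2 := e_step' h hc (x := x) (N := N) (M := M) (Λ1 := Λ1) (CL := CL) (s := σ k)
          ⟨hN, hNx, hx, hx1, hM, hCL, hU, hL, hs4.trans (hσs k), hsM.trans (hσs k),
            hsΛ.trans (hσs k), hsC.trans (hσs k)⟩ (hTk k) hge hT1 hT hxb hb2
        rw [← hg] at h2
        have h5 : kG / (2 * σ k ^ 2) * g ≤ kG / s ^ 2 * (3 / 4 * (1 / 4) ^ k) * g := by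
          refine mul_le_mul_of_nonneg_right ?_ hg0
          rw [div_eq_mul_inv, div_eq_mul_inv, mul_assoc]
          refine mul_le_mul_of_nonneg_left ?_ hk.le
          have e : σ k ^ 2 = 4 ^ k * s ^ 2 := by
            rw [hσ, mul_pow, ← pow_mul, mul_comm k 2, pow_mul]
            norm_num
          have e4 : (1 / 4 : ℝ) ^ k = (4 ^ k)⁻¹ := by rw [one_div, inv_pow]
          rw [e, e4, mul_inv, mul_inv]
          have p4 : (0 : ℝ) < (4 ^ k)⁻¹ := by positivity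
          have ps : (0 : ℝ) < (s ^ 2)⁻¹ := by positivity
          have p5 := mul_pos p4 ps
          linarith
        have e3 : kG / s ^ 2 * (1 - (1 / 4) ^ (k + 1)) * g =
            kG / s ^ 2 * (1 - (1 / 4) ^ k) * g + kG / s ^ 2 * (3 / 4 * (1 / 4) ^ k) * g := by
          rw [pow_succ, ← add_mul, ← mul_add]
          congr 2
          ring
        rw [e3]
        linarith
  -- the last window contains `1`
  obtain ⟨k, hk1⟩ := pow_unbounded_of_one_lt (1 / x ^ 2) (show (1 : ℝ) < 2 by norm_num)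
  have h1 : 1 ≤ Tk k := by
    have h2 : (2 : ℝ) ^ k ≤ σ k := by
      rw [hσ]
      exact le_mul_of_one_le_right (by positivity) (by linarith)
    have h3 : σ k ≤ σ k ^ 2000 := le_self_pow₀ (by linarith [hσs k]) (by norm_num)
    have h4 : 1 / x ^ 2 ≤ σ k ^ 2000 := (hk1.le.trans h2).trans h3
    rw [hTk]
    have h5 := mul_le_mul_of_nonneg_left h4 hx2.le
    rwa [mul_one_div_cancel hx2.ne'] at h5
  rw [← hT00] at hT₁
  have h2 := key k (1 / 2) (hT₁.trans hT₁') le_rfl (by linarith)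
  have h3 := PT_mono_T h hc hx hxb (hTk0 0).le hT₁ (by linarith)
  have h4 : kG / s ^ 2 * (1 - (1 / 4) ^ k) * g ≤ ε * g := by
    refine mul_le_mul_of_nonneg_right ?_ hg0
    have h5 : (0 : ℝ) ≤ (1 / 4) ^ k := by positivity
    have h6 : kG / s ^ 2 * (1 - (1 / 4) ^ k) ≤ kG / s ^ 2 :=
      mul_le_of_le_one_right (by positivity) (by linarith)
    refine h6.trans ?_
    rw [div_le_iff₀ (by positivity)]
    rw [div_le_iff₀ hε] at hsε
    have h7 : s ≤ s ^ 2 := le_self_pow₀ (by linarith) (by norm_num)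
    nlinarith
  rw [← hg]
  linarith

end Vale.Agent.P146.U.Fr
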